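/-
Row 152, module HW, helper22.   THE BLOCK CODE  `b_l = a^(l+1) f^N a^(l+1)`  in a free group.
The subgroup generated by the blocks `b_l` (`l < D`) and some other letters `o j` is free on them, and a reduced
word in these generators with `n` blocks has a reduced form with exactly `N * n` letters `f^{±1}`.
-/
import Mathlib

set_option autoImplicit false

namespace Claimed.Agent.R152.HW

open Function

/-- The data of a block code over the alphabet `ι`. -/
structure Code (ι : Type) where
  /-- the letter `a` -/
  la : ι
  /-- the letter `f` -/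
  lf : ι
  /-- number of other letters -/
  nO : ℕ
  /-- the other letters -/
  o : Fin nO → ι
  /-- number of blocks -/
  D : ℕ
  /-- length of the core -/
  N : ℕ
  la_ne_lf : la ≠ lf
  o_inj : Injective o
  o_ne_la : ∀ j, o j ≠ la
  o_ne_lf : ∀ j, o j ≠ lf
  N_pos : 0 < N

namespace Code

variable {ι : Type} [DecidableEq ι] (c : Code ι)

/-- The generators of `U`: blocks and other letters. -/
abbrev UL : Type := Fin c.D ⊕ Fin c.nO

/-- The block `a^(l+1) f^N a^(l+1)`. -/
def blk (l : Fin c.D) : FreeGroup ι :=
  FreeGroup.of c.la ^ ((l : ℕ) + 1) * FreeGroup.of c.lf ^ c.N * FreeGroup.of c.la ^ ((l : ℕ) + 1)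

/-- The word of a generator. -/
def blkWord : c.UL → List (ι × Bool)
  | Sum.inl l => List.replicate ((l : ℕ) + 1) (c.la, true) ++ List.replicate c.N (c.lf, true) ++
      List.replicate ((l : ℕ) + 1) (c.la, true)
  | Sum.inr j => [(c.o j, true)]

/-- `FreeGroup UL → FreeGroup ι`. -/
def blkHom : FreeGroup c.UL →* FreeGroup ι :=
  FreeGroup.lift (Sum.elim c.blk (fun j => FreeGroup.of (c.o j)))

/-- Number of blocks of a reduced `U`-word. -/
def nblk (ν : FreeGroup c.UL) : ℕ := (ν.toWord.filter (fun y => y.1.isLeft)).length

/-- Number of letters `f^{±1}` of an element of the free group. -/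
def nf (φ : FreeGroup ι) : ℕ := (φ.toWord.filter (fun y => decide (y.1 = c.lf))).length

/-- The word of `a^e`, `e : ℤ`. -/
def aw (e : ℤ) : List (ι × Bool) := List.replicate e.natAbs (c.la, decide (0 < e))

/-- The sign `±1` of a Boolean. -/
def sg (e : Bool) : ℤ := if e then 1 else -1

/-- THE REDUCED FORM, with a pending exponent `e` of `a`:
`X e [] = a^e`,  `X e ((b_l)^ε :: L) = a^(e + ε(l+1)) f^(εN) X (ε(l+1)) L`,  `X e ((o j)^ε :: L) = a^e (o j)^ε X 0 L`. -/
def X : ℤ → List (c.UL × Bool) → List (ι × Bool)
  | e, [] => c.aw e
  | e, (Sum.inl l, ε) :: L =>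
      c.aw (e + sg ε * ((l : ℕ) + 1)) ++ List.replicate c.N (c.lf, ε) ++ X (sg ε * ((l : ℕ) + 1)) L
  | e, (Sum.inr j, ε) :: L => c.aw e ++ (c.o j, ε) :: X 0 L

/-- `X e L` represents `a^e * blkHom (mk L)` (plain algebra, induction on `L`). -/
theorem mk_replicate_aux (x : ι) (b : Bool) (n : ℕ) :
    FreeGroup.mk (List.replicate n (x, b)) = (FreeGroup.mk [(x, b)]) ^ n := by
  induction n with
  | zero => simp [FreeGroup.one_eq_mk]
  | succ n ih =>
      rw [List.replicate_succ, pow_succ', ← ih, FreeGroup.mul_mk]
      rfl

theorem mk_single_false_aux (x : ι) :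
    FreeGroup.mk [(x, false)] = (FreeGroup.of x)⁻¹ := by
  simp [FreeGroup.of, FreeGroup.inv_mk, FreeGroup.invRev]

theorem mk_aw (e : ℤ) : FreeGroup.mk (c.aw e) = FreeGroup.of c.la ^ e := by
  unfold aw
  rw [mk_replicate_aux]
  rcases lt_trichotomy 0 e with h | h | h
  · have h1 : decide (0 < e) = true := by simpa using h
    rw [h1]
    have h2 : ((e.natAbs : ℕ) : ℤ) = e := by omega
    conv_rhs => rw [← h2]
    rw [zpow_natCast]
    rfl
  · subst h
    simp
  · have h1 : decide (0 < e) = false := by simpa using h.le
    rw [h1, mk_single_false_aux]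
    have h2 : e = -((e.natAbs : ℕ) : ℤ) := by omega
    conv_rhs => rw [h2]
    rw [zpow_neg, zpow_natCast, inv_pow]

theorem blkHom_mk_cons (u : c.UL) (ε : Bool) (L : List (c.UL × Bool)) :
    c.blkHom (FreeGroup.mk ((u, ε) :: L)) =
      (cond ε (Sum.elim c.blk (fun j => FreeGroup.of (c.o j)) u)
        (Sum.elim c.blk (fun j => FreeGroup.of (c.o j)) u)⁻¹) * c.blkHom (FreeGroup.mk L) := by
  simp [blkHom, FreeGroup.lift_mk]

theorem mk_X (e : ℤ) (L : List (c.UL × Bool)) :
    FreeGroup.mk (c.X e L) = FreeGroup.of c.la ^ e * c.blkHom (FreeGroup.mk L) := by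
  induction L generalizing e with
  | nil =>
      have h1 : (FreeGroup.mk ([] : List (c.UL × Bool))) = 1 := rfl
      rw [h1, map_one, mul_one]
      exact c.mk_aw e
  | cons x L ih =>
      obtain ⟨u, ε⟩ := x
      rw [blkHom_mk_cons]
      cases u with
      | inl l =>
          simp only [X]
          rw [← FreeGroup.mul_mk, ← FreeGroup.mul_mk, ih, mk_aw, mk_replicate_aux]
          cases ε with
          | true =>
              simp only [sg, if_true, one_mul, cond_true, Sum.elim_inl, blk]
              have h1 : FreeGroup.mk [(c.lf, true)] = FreeGroup.of c.lf := rfl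
              rw [h1, zpow_add]
              have h2 : FreeGroup.of c.la ^ (((l : ℕ) : ℤ) + 1) = FreeGroup.of c.la ^ ((l : ℕ) + 1) := by
                rw [← zpow_natCast]; push_cast; rfl
              rw [h2]
              simp only [mul_assoc]
          | false =>
              simp only [sg, Bool.false_eq_true, if_false, cond_false, Sum.elim_inl, blk]
              rw [mk_single_false_aux, zpow_add]
              have h2 : FreeGroup.of c.la ^ (-1 * (((l : ℕ) : ℤ) + 1)) =
                  (FreeGroup.of c.la ^ ((l : ℕ) + 1))⁻¹ := by
                rw [← zpow_natCast, ← zpow_neg]; push_cast; congr 1; ring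
              rw [h2]
              simp only [mul_inv_rev, mul_assoc, inv_pow]
      | inr j =>
          simp only [X]
          have h0 : c.aw e ++ (c.o j, ε) :: c.X 0 L = c.aw e ++ ([(c.o j, ε)] ++ c.X 0 L) := rfl
          rw [h0, ← FreeGroup.mul_mk, ← FreeGroup.mul_mk, ih, mk_aw, zpow_zero, one_mul]
          cases ε with
          | true =>
              simp only [cond_true, Sum.elim_inr]
              have h1 : FreeGroup.mk [(c.o j, true)] = FreeGroup.of (c.o j) := rfl
              rw [h1]
          | false =>
              simp only [cond_false, Sum.elim_inr]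
              rw [mk_single_false_aux]

theorem head_replicate_append_aux {α : Type} (n : ℕ) (x : α) (M : List α) (y : α)
    (hy : y ∈ (List.replicate n x ++ M).head?) : y = x ∨ (n = 0 ∧ y ∈ M.head?) := by
  cases n with
  | zero => right; simpa using hy
  | succ n =>
      left
      simp [List.replicate_succ] at hy
      exact hy.symm

theorem isReduced_replicate_append_aux (n : ℕ) (x : ι × Bool) (M : List (ι × Bool))
    (hM : FreeGroup.IsReduced M) (hx : ∀ y ∈ M.head?, x.1 = y.1 → x.2 = y.2) :
    FreeGroup.IsReduced (List.replicate n x ++ M) := by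
  induction n with
  | zero => simpa using hM
  | succ n ih =>
      rw [List.replicate_succ, List.cons_append]
      refine List.isChain_cons.2 ⟨?_, ih⟩
      intro y hy
      rcases head_replicate_append_aux n x M y hy with h | ⟨_, h⟩
      · intro _; rw [h]
      · exact hx y h

theorem aw_ne_nil_head (e : ℤ) (he : e ≠ 0) (M : List (ι × Bool)) (y : ι × Bool)
    (hy : y ∈ (c.aw e ++ M).head?) : y.1 = c.la := by
  unfold aw at hy
  rcases head_replicate_append_aux _ _ M y hy with h | ⟨h, _⟩
  · rw [h]
  · exact absurd (Int.natAbs_eq_zero.1 h) he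

/-- The first letter of `X e L`. -/
theorem head_X (e : ℤ) (L : List (c.UL × Bool))
    (he : ∀ l ε L', L = (Sum.inl l, ε) :: L' → e + sg ε * (((l : Fin c.D) : ℕ) + 1) ≠ 0)
    (y : ι × Bool) (hy : y ∈ (c.X e L).head?) :
    y.1 = c.la ∨ (e = 0 ∧ ∃ j ε L', L = (Sum.inr j, ε) :: L' ∧ y = (c.o j, ε)) := by
  cases L with
  | nil =>
      left
      simp only [X] at hy
      unfold aw at hy
      have hy' : y ∈ (List.replicate e.natAbs (c.la, decide (0 < e)) ++ []).head? := by
        simpa using hy
      rcases head_replicate_append_aux _ _ _ y hy' with h | ⟨_, h⟩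
      · rw [h]
      · simp at h
  | cons x L' =>
      obtain ⟨u, ε⟩ := x
      cases u with
      | inl l =>
          left
          simp only [X, List.append_assoc] at hy
          exact c.aw_ne_nil_head _ (he l ε L' rfl) _ y hy
      | inr j =>
          simp only [X] at hy
          by_cases h0 : e = 0
          · right
            refine ⟨h0, j, ε, L', rfl, ?_⟩
            subst h0
            simp [aw] at hy
            exact hy.symm
          · left
            exact c.aw_ne_nil_head _ h0 _ y hy

theorem sg_mul_ne_zero (ε : Bool) (n : ℕ) : sg ε * ((n : ℤ) + 1) ≠ 0 := by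
  cases ε <;> simp [sg] <;> omega

theorem isReduced_X_aux (L : List (c.UL × Bool)) (hL : FreeGroup.IsReduced L) (e : ℤ)
    (he : ∀ l ε L', L = (Sum.inl l, ε) :: L' → e + sg ε * (((l : Fin c.D) : ℕ) + 1) ≠ 0) :
    FreeGroup.IsReduced (c.X e L) := by
  induction L generalizing e with
  | nil =>
      simp only [X]
      unfold aw
      have := isReduced_replicate_append_aux e.natAbs (c.la, decide (0 < e)) []
        FreeGroup.IsReduced.nil (by simp)
      simpa using this
  | cons x L' ih =>
      obtain ⟨u, ε⟩ := x
      have hL' : FreeGroup.IsReduced L' := (List.isChain_cons.1 hL).2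
      have hhd := (List.isChain_cons.1 hL).1
      cases u with
      | inl l =>
          simp only [X, List.append_assoc]
          have he'' : ∀ l' ε' L'', L' = (Sum.inl l', ε') :: L'' →
              sg ε * (((l : Fin c.D) : ℕ) + 1) + sg ε' * (((l' : Fin c.D) : ℕ) + 1) ≠ 0 := by
            intro l' ε' L'' hL''
            subst hL''
            have h1 := hhd (Sum.inl l', ε') (by simp)
            intro h2
            by_cases hll : l = l'
            · have h3 : ε = ε' := h1 (by simp [hll])
              subst h3
              subst hll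
              cases ε <;> simp [sg] at h2 <;> omega
            · have hne : (l : ℕ) ≠ (l' : ℕ) := fun h => hll (Fin.ext h)
              cases ε <;> cases ε' <;> simp [sg] at h2 <;> omega
          have ihX := ih hL' _ he''
          unfold aw
          refine isReduced_replicate_append_aux _ _ _
            (isReduced_replicate_append_aux _ _ _ ihX ?_) ?_
          · intro y hy h1
            rcases c.head_X _ L' he'' y hy with h | ⟨h, _⟩
            · exact absurd (h1.trans h).symm c.la_ne_lf
            · exact absurd h (sg_mul_ne_zero ε l)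
          · intro y hy h1
            rcases head_replicate_append_aux _ _ _ y hy with h | ⟨h, _⟩
            · rw [h] at h1
              exact absurd h1 c.la_ne_lf
            · exact absurd h c.N_pos.ne'
      | inr j =>
          simp only [X]
          have he0 : ∀ l' ε' L'', L' = (Sum.inl l', ε') :: L'' →
              (0 : ℤ) + sg ε' * (((l' : Fin c.D) : ℕ) + 1) ≠ 0 := by
            intro l' ε' L'' _
            rw [zero_add]
            exact sg_mul_ne_zero ε' l'
          have ihX := ih hL' 0 he0
          unfold aw
          refine isReduced_replicate_append_aux _ _ _ (List.isChain_cons.2 ⟨?_, ihX⟩) ?_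
          · intro y hy h1
            rcases c.head_X 0 L' he0 y hy with h | ⟨_, j', ε', L'', hL'', hy'⟩
            · exact absurd (h1.trans h) (c.o_ne_la j)
            · subst hL''
              subst hy'
              have hjj : j = j' := c.o_inj h1
              exact hhd (Sum.inr j', ε') (by simp) (by simp [hjj])
          · intro y hy h1
            simp at hy
            rw [← hy] at h1
            exact absurd h1.symm (c.o_ne_la j)

/-- `X 0 L` is reduced when `L` is.
Proof. Generalise: for reduced `L` and every `e` such that (`L = (inl l, ε) :: _ → e + ε(l+1) ≠ 0`), the word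
`X e L` is reduced, and its first letter is: `a^{sign}` if the first `a`-run is non-empty, ...; the recursive
calls satisfy the hypothesis: after `(inl l, ε)` the pending exponent is `ε(l+1)`, and if the next letter is
`(inl l', ε')` then `ε(l+1) + ε'(l'+1) = 0` forces `ε' = -ε`, `l' = l`, excluded by reducedness of `L`; after
`(inr j, ε)` the pending exponent is `0` and `ε'(l'+1) ≠ 0`. Neighbouring runs have different letters
(`la ≠ lf`, `o j ≠ la, lf`), two neighbouring letters `(o j)^ε (o j')^ε'` (empty `a`-run) are neighbours in `L`. -/
theorem isReduced_X (L : List (c.UL × Bool)) (hL : FreeGroup.IsReduced L) :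
    FreeGroup.IsReduced (c.X 0 L) := by
  refine c.isReduced_X_aux L hL 0 ?_
  intro l ε L' _
  cases ε <;> simp [sg] <;> omega

/-- Hence: -/
theorem toWord_blkHom (ν : FreeGroup c.UL) : (c.blkHom ν).toWord = c.X 0 ν.toWord := by
  have h1 := c.mk_X 0 ν.toWord
  rw [FreeGroup.mk_toWord, zpow_zero, one_mul] at h1
  rw [← h1, FreeGroup.toWord_mk]
  exact (c.isReduced_X _ FreeGroup.isReduced_toWord).reduce_eq

theorem X_cons_ne_nil (e : ℤ) (x : c.UL × Bool) (L : List (c.UL × Bool)) : c.X e (x :: L) ≠ [] := by
  obtain ⟨u, ε⟩ := x
  cases u with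
  | inl l =>
      simp only [X]
      intro h
      have h1 := congrArg List.length h
      simp at h1
      have := c.N_pos
      omega
  | inr j =>
      simp only [X]
      intro h
      have h1 := congrArg List.length h
      simp at h1

theorem blkHom_injective : Injective c.blkHom := by
  rw [injective_iff_map_eq_one]
  intro ν hν
  have h1 := c.toWord_blkHom ν
  rw [hν, FreeGroup.toWord_one] at h1
  rw [← FreeGroup.toWord_eq_nil_iff]
  cases hw : ν.toWord with
  | nil => rfl
  | cons x L =>
      rw [hw] at h1
      exact absurd h1.symm (c.X_cons_ne_nil 0 x L)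

/-- EVERY BLOCK KEEPS ITS CORE. -/
theorem filter_aw (e : ℤ) : (c.aw e).filter (fun y => decide (y.1 = c.lf)) = [] := by
  unfold aw
  rw [List.filter_eq_nil_iff]
  intro y hy
  rw [List.eq_of_mem_replicate hy]
  simpa using c.la_ne_lf

theorem nf_X (e : ℤ) (L : List (c.UL × Bool)) :
    ((c.X e L).filter (fun y => decide (y.1 = c.lf))).length =
      c.N * (L.filter (fun y => y.1.isLeft)).length := by
  induction L generalizing e with
  | nil => simp [X, filter_aw]
  | cons x L ih =>
      obtain ⟨u, ε⟩ := x
      cases u with
      | inl l =>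
          simp only [X, List.filter_append, filter_aw, List.nil_append, List.length_append, ih]
          have h1 : (List.replicate c.N (c.lf, ε)).filter (fun y => decide (y.1 = c.lf)) =
              List.replicate c.N (c.lf, ε) := by
            rw [List.filter_eq_self]
            intro y hy
            rw [List.eq_of_mem_replicate hy]
            simp
          rw [h1, List.filter_cons_of_pos (by simp), List.length_cons, List.length_replicate,
            Nat.mul_succ, Nat.add_comm]
      | inr j =>
          simp only [X, List.filter_append, filter_aw, List.nil_append]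
          have h1 : decide ((c.o j, ε).1 = c.lf) = false := by simpa using c.o_ne_lf j
          rw [List.filter_cons_of_neg (by simpa using c.o_ne_lf j), ih]
          simp

theorem nf_blkHom (ν : FreeGroup c.UL) : c.nf (c.blkHom ν) = c.N * c.nblk ν := by
  unfold nf nblk
  rw [toWord_blkHom]
  exact c.nf_X 0 _

theorem letters_X (e : ℤ) (L : List (c.UL × Bool)) (y : ι × Bool) (hy : y ∈ c.X e L) :
    y.1 = c.la ∨ y.1 = c.lf ∨ y.1 ∈ Set.range c.o := by
  induction L generalizing e with
  | nil =>
      simp only [X, aw] at hy
      rw [List.eq_of_mem_replicate hy]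
      exact Or.inl rfl
  | cons x L ih =>
      obtain ⟨u, ε⟩ := x
      cases u with
      | inl l =>
          simp only [X, List.mem_append, aw] at hy
          rcases hy with (hy | hy) | hy
          · rw [List.eq_of_mem_replicate hy]; exact Or.inl rfl
          · rw [List.eq_of_mem_replicate hy]; exact Or.inr (Or.inl rfl)
          · exact ih _ hy
      | inr j =>
          simp only [X, List.mem_append, List.mem_cons, aw] at hy
          rcases hy with hy | hy | hy
          · rw [List.eq_of_mem_replicate hy]; exact Or.inl rfl
          · rw [hy]; exact Or.inr (Or.inr ⟨j, rfl⟩)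
          · exact ih _ hy

/-- The letters of `blkHom ν`. -/
theorem letters_blkHom (ν : FreeGroup c.UL) (y : ι × Bool) (hy : y ∈ (c.blkHom ν).toWord) :
    y.1 = c.la ∨ y.1 = c.lf ∨ y.1 ∈ Set.range c.o := by
  rw [toWord_blkHom] at hy
  exact c.letters_X 0 _ y hy

theorem pos_X (e : ℤ) (L : List (c.UL × Bool)) (h : ∀ y ∈ c.X e L, y.2 = true) :
    ∀ y ∈ L, y.2 = true := by
  induction L generalizing e with
  | nil => simp
  | cons x L ih =>
      obtain ⟨u, ε⟩ := x
      cases u with
      | inl l =>
          simp only [X] at h
          intro y hy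
          rcases List.mem_cons.1 hy with hy | hy
          · rw [hy]
            have h1 : (c.lf, ε) ∈ List.replicate c.N (c.lf, ε) :=
              List.mem_replicate.2 ⟨c.N_pos.ne', rfl⟩
            exact h (c.lf, ε) (List.mem_append_left _ (List.mem_append_right _ h1))
          · exact ih _ (fun z hz => h z (List.mem_append_right _ hz)) y hy
      | inr j =>
          simp only [X] at h
          intro y hy
          rcases List.mem_cons.1 hy with hy | hy
          · rw [hy]
            exact h (c.o j, ε) (List.mem_append_right _ (List.mem_cons_self))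
          · exact ih _ (fun z hz => h z (List.mem_append_right _ (List.mem_cons_of_mem _ hz))) y hy

/-- If the reduced form of `blkHom ν` is positive, so is `ν` (the core `f^(εN)` and the letters `(o j)^ε` show
the signs). -/
theorem pos_of_pos (ν : FreeGroup c.UL) (h : ∀ y ∈ (c.blkHom ν).toWord, y.2 = true) :
    ∀ y ∈ ν.toWord, y.2 = true := by
  rw [toWord_blkHom] at h
  exact c.pos_X 0 _ h

theorem aw_natCast (k : ℕ) : c.aw (k : ℤ) = List.replicate k (c.la, true) := by
  unfold aw
  cases k with
  | zero => simp
  | succ k =>
      have h1 : decide ((0 : ℤ) < ((k + 1 : ℕ) : ℤ)) = true := by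
        simp only [decide_eq_true_eq]; omega
      rw [h1, Int.natAbs_natCast]

theorem X_of_pos (k : ℕ) (L : List (c.UL × Bool)) (h : ∀ y ∈ L, y.2 = true) :
    c.X (k : ℤ) L = List.replicate k (c.la, true) ++ L.flatMap (fun y => c.blkWord y.1) := by
  induction L generalizing k with
  | nil => simp [X, aw_natCast]
  | cons x L ih =>
      obtain ⟨u, ε⟩ := x
      have hε : ε = true := h (u, ε) List.mem_cons_self
      subst hε
      have hL : ∀ y ∈ L, y.2 = true := fun y hy => h y (List.mem_cons_of_mem _ hy)
      cases u with
      | inl l =>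
          simp only [X, sg, if_true, one_mul, List.flatMap_cons]
          have hb : c.blkWord (Sum.inl l) = List.replicate ((l : ℕ) + 1) (c.la, true) ++
              List.replicate c.N (c.lf, true) ++ List.replicate ((l : ℕ) + 1) (c.la, true) := rfl
          have h1 : ((k : ℤ) + (((l : ℕ) : ℤ) + 1)) = ((k + ((l : ℕ) + 1) : ℕ) : ℤ) := by push_cast; ring
          have h2 : ((((l : ℕ) : ℤ) + 1)) = ((((l : ℕ) + 1 : ℕ)) : ℤ) := by push_cast; ring
          rw [hb, h1, aw_natCast, h2, ih _ hL, List.replicate_add]
          simp only [List.append_assoc]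
      | inr j =>
          simp only [X, List.flatMap_cons]
          have hb : c.blkWord (Sum.inr j) = [(c.o j, true)] := rfl
          have h0 := ih 0 hL
          simp only [Nat.cast_zero, List.replicate_zero, List.nil_append] at h0
          rw [hb, h0, aw_natCast]
          simp

/-- The reduced form of a positive word is the concatenation of the blocks. -/
theorem toWord_blkHom_of_pos (ν : FreeGroup c.UL) (h : ∀ y ∈ ν.toWord, y.2 = true) :
    (c.blkHom ν).toWord = ν.toWord.flatMap (fun y => c.blkWord y.1) := by
  rw [toWord_blkHom]
  have := c.X_of_pos 0 _ h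
  simpa using this

end Code

end Claimed.Agent.R152.HW
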