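/-
Row 152, module HW (hardware), helper22.   AFFINE MACHINES AND THE GROUP `K0`.
An affine machine has `k` registers (configurations = `Fin k → ℤ`) and letters `Fin nL`. The letter
`l` is the partial injective map  `a l + mu l * u  ↦  b l + mu' l * u`  (`u : Fin k → ℤ`, all operations
coordinatewise; `mu l i = 0 ↔ mu' l i = 0`: an EXACT test `α i = a l i` of the register `i`).
`K0` = multiple HNN extension of `Q = ℤ^k` with one stable letter per machine letter,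
`lam l * x (mu l * u) = x (mu' l * u) * lam l`.   `Chat = ⟨x(-b l) lam l x(a l)⟩`,  `Om = K0 ⧸ Chat`,
configuration `α` = the point `cf α = x α Chat`;  `lam l` acts on configurations as the letter `l`.
-/
import Claimed.Agent.R152.H.Semi
import Claimed.Agent.R152.H.MHNNSub
import Claimed.Agent.R152.B.FpProd

set_option autoImplicit false

noncomputable section

namespace Claimed.Agent.R152.HW

open Claimed.Agent.R152.H Subgroup Function

/-- An affine machine. -/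
structure Aff where
  /-- number of registers -/
  k : ℕ
  /-- number of letters -/
  nL : ℕ
  /-- source moduli -/
  mu : Fin nL → Fin k → ℕ
  /-- target moduli -/
  mu' : Fin nL → Fin k → ℕ
  /-- source offsets -/
  a : Fin nL → Fin k → ℤ
  /-- target offsets -/
  b : Fin nL → Fin k → ℤ
  /-- exact tests are exact on both sides -/
  mu_zero : ∀ l i, mu l i = 0 ↔ mu' l i = 0

namespace Aff

variable (𝔐 : Aff)

/-- Configurations. -/
abbrev Vec : Type := Fin 𝔐.k → ℤ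

/-- The base group `ℤ^k`, written multiplicatively. -/
abbrev Q : Type := Multiplicative 𝔐.Vec

variable {𝔐}

/-- Coordinatewise multiplication by `c`. -/
def sc (c : Fin 𝔐.k → ℕ) (u : 𝔐.Vec) : 𝔐.Vec := fun i => (c i : ℤ) * u i

/-- `sc c` as an endomorphism of `Q`. -/
def scHom (c : Fin 𝔐.k → ℕ) : 𝔐.Q →* 𝔐.Q :=
  AddMonoidHom.toMultiplicative
    { toFun := sc c
      map_zero' := by funext i; simp [sc]
      map_add' := by intro u v; funext i; simp [sc, mul_add] }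

@[simp] theorem scHom_ofAdd (c : Fin 𝔐.k → ℕ) (u : 𝔐.Vec) :
    scHom c (Multiplicative.ofAdd u) = Multiplicative.ofAdd (sc c u) := rfl

variable (𝔐)

/-- The source lattice of the letter `l`. -/
def A (l : Fin 𝔐.nL) : Subgroup 𝔐.Q := (scHom (𝔐.mu l)).range

/-- The target lattice of the letter `l`. -/
def B (l : Fin 𝔐.nL) : Subgroup 𝔐.Q := (scHom (𝔐.mu' l)).range

theorem ker_scHom_eq (l : Fin 𝔐.nL) : (scHom (𝔐.mu l)).ker = (scHom (𝔐.mu' l)).ker := by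
  have key : ∀ (c : Fin 𝔐.k → ℕ) (u : 𝔐.Vec),
      Multiplicative.ofAdd (sc c u) = (1 : 𝔐.Q) ↔ ∀ i, c i = 0 ∨ u i = 0 := by
    intro c u
    rw [← ofAdd_zero, Multiplicative.ofAdd.injective.eq_iff, funext_iff]
    simp [sc]
  ext q
  obtain ⟨u, rfl⟩ := Multiplicative.ofAdd.surjective q
  simp only [MonoidHom.mem_ker, scHom_ofAdd]
  rw [key, key]
  exact forall_congr' (fun i => by rw [𝔐.mu_zero l i])

/-- `mu l * u ↦ mu' l * u`. -/
def phi (l : Fin 𝔐.nL) : 𝔐.A l ≃* 𝔐.B l :=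
  (QuotientGroup.quotientKerEquivRange (scHom (𝔐.mu l))).symm.trans
    ((QuotientGroup.quotientMulEquivOfEq (𝔐.ker_scHom_eq l)).trans
      (QuotientGroup.quotientKerEquivRange (scHom (𝔐.mu' l))))

theorem phi_apply (l : Fin 𝔐.nL) (u : 𝔐.Vec) (h : Multiplicative.ofAdd (sc (𝔐.mu l) u) ∈ 𝔐.A l) :
    (𝔐.phi l ⟨Multiplicative.ofAdd (sc (𝔐.mu l) u), h⟩ : 𝔐.Q) =
      Multiplicative.ofAdd (sc (𝔐.mu' l) u) := by
  have e : (QuotientGroup.quotientKerEquivRange (scHom (𝔐.mu l))).symm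
      ⟨Multiplicative.ofAdd (sc (𝔐.mu l) u), h⟩ = QuotientGroup.mk (Multiplicative.ofAdd u) := by
    rw [MulEquiv.symm_apply_eq]
    apply Subtype.ext
    rfl
  show ((QuotientGroup.quotientKerEquivRange (scHom (𝔐.mu' l)))
    (QuotientGroup.quotientMulEquivOfEq (𝔐.ker_scHom_eq l)
      ((QuotientGroup.quotientKerEquivRange (scHom (𝔐.mu l))).symm
        ⟨Multiplicative.ofAdd (sc (𝔐.mu l) u), h⟩)) : 𝔐.Q) = _
  rw [e]
  rfl

theorem mem_A_iff (l : Fin 𝔐.nL) (v : 𝔐.Vec) :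
    Multiplicative.ofAdd v ∈ 𝔐.A l ↔ ∃ u, v = sc (𝔐.mu l) u := by
  constructor
  · rintro ⟨q, hq⟩
    exact ⟨Multiplicative.toAdd q, (Multiplicative.ofAdd.injective hq).symm⟩
  · rintro ⟨u, rfl⟩
    exact ⟨Multiplicative.ofAdd u, rfl⟩

theorem mem_B_iff (l : Fin 𝔐.nL) (v : 𝔐.Vec) :
    Multiplicative.ofAdd v ∈ 𝔐.B l ↔ ∃ u, v = sc (𝔐.mu' l) u := by
  constructor
  · rintro ⟨q, hq⟩
    exact ⟨Multiplicative.toAdd q, (Multiplicative.ofAdd.injective hq).symm⟩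
  · rintro ⟨u, rfl⟩
    exact ⟨Multiplicative.ofAdd u, rfl⟩

/-- The group `K0`. -/
abbrev K0 : Type := MHNN 𝔐.Q 𝔐.A 𝔐.B 𝔐.phi

variable {𝔐}

/-- Translations. -/
def x (v : 𝔐.Vec) : 𝔐.K0 := MHNN.of (Multiplicative.ofAdd v)

/-- Stable letters = machine letters. -/
def lam (l : Fin 𝔐.nL) : 𝔐.K0 := MHNN.t l

@[simp] theorem x_zero : (x 0 : 𝔐.K0) = 1 := by
  unfold x
  rw [ofAdd_zero, map_one]

theorem x_add (v w : 𝔐.Vec) : (x (v + w) : 𝔐.K0) = x v * x w := by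
  unfold x
  rw [ofAdd_add, map_mul]

theorem x_neg (v : 𝔐.Vec) : (x (-v) : 𝔐.K0) = (x v)⁻¹ := by
  unfold x
  rw [ofAdd_neg, map_inv]

theorem x_comm (v w : 𝔐.Vec) : (x v : 𝔐.K0) * x w = x w * x v := by
  rw [← x_add, ← x_add, add_comm]

theorem x_injective : Injective (x : 𝔐.Vec → 𝔐.K0) := by
  exact MHNN.of_injective.comp Multiplicative.ofAdd.injective

theorem lam_mul_x (l : Fin 𝔐.nL) (u : 𝔐.Vec) :
    lam l * x (sc (𝔐.mu l) u) = x (sc (𝔐.mu' l) u) * lam l := by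
  have h : Multiplicative.ofAdd (sc (𝔐.mu l) u) ∈ 𝔐.A l := (𝔐.mem_A_iff l _).2 ⟨u, rfl⟩
  have h2 := MHNN.t_mul_of (φ := 𝔐.phi) l ⟨_, h⟩
  rw [𝔐.phi_apply l u h] at h2
  exact h2

/-- UNIVERSAL PROPERTY of `K0`. -/
theorem K0_exists_lift {M : Type*} [Group M] (f : 𝔐.Vec → M) (hf : ∀ v w, f (v + w) = f v * f w)
    (y : Fin 𝔐.nL → M) (hy : ∀ l u, y l * f (sc (𝔐.mu l) u) = f (sc (𝔐.mu' l) u) * y l) :
    ∃ F : 𝔐.K0 →* M, (∀ v, F (x v) = f v) ∧ ∀ l, F (lam l) = y l := by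
  let f' : 𝔐.Q →* M := MonoidHom.mk' (fun q => f (Multiplicative.toAdd q)) (fun a b => hf _ _)
  have hx : ∀ i (a : 𝔐.A i), y i * f' ↑a = f' (𝔐.phi i a : 𝔐.Q) * y i := by
    rintro i ⟨q, hq⟩
    obtain ⟨v, rfl⟩ := Multiplicative.ofAdd.surjective q
    obtain ⟨u, rfl⟩ := (𝔐.mem_A_iff i v).1 hq
    rw [𝔐.phi_apply i u hq]
    exact hy i u
  exact ⟨MHNN.lift f' y hx, fun v => MHNN.lift_of _ _ _ _, fun l => MHNN.lift_t _ _ _ _⟩

theorem K0_hom_ext {M : Type*} [Group M] {F F' : 𝔐.K0 →* M} (h1 : ∀ v, F (x v) = F' (x v))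
    (h2 : ∀ l, F (lam l) = F' (lam l)) : F = F' := by
  apply MHNN.hom_ext
  · apply MonoidHom.ext
    intro q
    exact h1 (Multiplicative.toAdd q)
  · exact h2

variable (𝔐)

/-- One step of the letter `l`. -/
def Step (l : Fin 𝔐.nL) (α β : 𝔐.Vec) : Prop :=
  ∃ u : 𝔐.Vec, α = 𝔐.a l + sc (𝔐.mu l) u ∧ β = 𝔐.b l + sc (𝔐.mu' l) u

variable {𝔐}

/-- The letters are partial functions ... -/
theorem Step.right_unique {l : Fin 𝔐.nL} {α β β' : 𝔐.Vec} (h : 𝔐.Step l α β) (h' : 𝔐.Step l α β') :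
    β = β' := by
  obtain ⟨u, hα, rfl⟩ := h
  obtain ⟨u', hα', rfl⟩ := h'
  have e : sc (𝔐.mu l) u = sc (𝔐.mu l) u' := add_left_cancel (hα.symm.trans hα')
  congr 1
  funext i
  have ei := congrFun e i
  simp only [sc] at ei ⊢
  by_cases h0 : 𝔐.mu l i = 0
  · rw [(𝔐.mu_zero l i).1 h0]
    simp
  · have h1 : u i = u' i := mul_left_cancel₀ (by exact_mod_cast h0) ei
    rw [h1]

/-- ... and injective. -/
theorem Step.left_unique {l : Fin 𝔐.nL} {α α' β : 𝔐.Vec} (h : 𝔐.Step l α β) (h' : 𝔐.Step l α' β) :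
    α = α' := by
  obtain ⟨u, rfl, hβ⟩ := h
  obtain ⟨u', rfl, hβ'⟩ := h'
  have e : sc (𝔐.mu' l) u = sc (𝔐.mu' l) u' := add_left_cancel (hβ.symm.trans hβ')
  congr 1
  funext i
  have ei := congrFun e i
  simp only [sc] at ei ⊢
  by_cases h0 : 𝔐.mu' l i = 0
  · rw [(𝔐.mu_zero l i).2 h0]
    simp
  · have h1 : u i = u' i := mul_left_cancel₀ (by exact_mod_cast h0) ei
    rw [h1]

/-- The generators of `Chat`. -/
def chat (l : Fin 𝔐.nL) : 𝔐.K0 := x (-𝔐.b l) * lam l * x (𝔐.a l)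

variable (𝔐)

/-- The centraliser of the marker. -/
def Chat : Subgroup 𝔐.K0 := closure (Set.range chat)

/-- The points. -/
abbrev Om : Type := 𝔐.K0 ⧸ 𝔐.Chat

variable {𝔐}

/-- The point of a configuration. -/
def cf (α : 𝔐.Vec) : 𝔐.Om := ((x α : 𝔐.K0) : 𝔐.K0 ⧸ 𝔐.Chat)

theorem x_smul_cf (v α : 𝔐.Vec) : (x v : 𝔐.K0) • cf α = cf (v + α) := by
  unfold cf
  rw [x_add]
  rfl

/-- `lam l` acts on configurations as the letter `l`:
`lam x(a + mu u) = x(mu' u) lam x(a) = x(b + mu' u) (x(-b) lam x(a))`. -/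
theorem lam_smul_cf {l : Fin 𝔐.nL} {α β : 𝔐.Vec} (h : 𝔐.Step l α β) : lam l • cf α = cf β := by
  obtain ⟨u, rfl, rfl⟩ := h
  have key : lam l * x (𝔐.a l + sc (𝔐.mu l) u) = x (𝔐.b l + sc (𝔐.mu' l) u) * chat l := by
    unfold chat
    rw [add_comm (𝔐.a l), x_add, ← mul_assoc, lam_mul_x, add_comm (𝔐.b l), x_add, x_neg]
    group
  show ((lam l * x (𝔐.a l + sc (𝔐.mu l) u) : 𝔐.K0) : 𝔐.K0 ⧸ 𝔐.Chat) = _
  rw [key]
  exact QuotientGroup.mk_mul_of_mem _ (subset_closure ⟨l, rfl⟩)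

theorem lam_inv_smul_cf {l : Fin 𝔐.nL} {α β : 𝔐.Vec} (h : 𝔐.Step l α β) :
    (lam l)⁻¹ • cf β = cf α := by
  rw [← lam_smul_cf h, inv_smul_smul]

theorem Chat_fg : (𝔐.Chat).FG :=
  (Subgroup.fg_iff _).2 ⟨Set.range chat, rfl, Set.finite_range _⟩

/-- `ℤ^k` is finitely presented. (Induction on `k`, or: `Multiplicative (Fin k → ℤ)` is a finite product
of copies of `Multiplicative ℤ`; see what Mathlib / `Claimed/Agent/R152/B` offer for products.) -/
theorem Q_isFinitelyPresented : Group.IsFinitelyPresented 𝔐.Q := by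
  have h : Group.IsFinitelyPresented (Fin 𝔐.k → Multiplicative ℤ) := Claimed.Agent.R152.B.fp_pi
  let e : (Fin 𝔐.k → Multiplicative ℤ) ≃* 𝔐.Q :=
    { toFun := fun f => Multiplicative.ofAdd (fun i => Multiplicative.toAdd (f i))
      invFun := fun g i => Multiplicative.ofAdd (Multiplicative.toAdd g i)
      left_inv := fun f => rfl
      right_inv := fun g => rfl
      map_mul' := fun f g => rfl }
  exact Group.IsFinitelyPresented.equiv e

theorem A_fg (l : Fin 𝔐.nL) : (𝔐.A l).FG := by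
  obtain ⟨n, φ, hφ, -⟩ := (Q_isFinitelyPresented (𝔐 := 𝔐)).out
  have h1 : Group.FG 𝔐.Q := Group.fg_of_surjective hφ
  exact (Group.fg_iff_subgroup_fg _).1 (Group.fg_range (scHom (𝔐.mu l)))

theorem K0_isFinitelyPresented : Group.IsFinitelyPresented 𝔐.K0 := by
  have := Q_isFinitelyPresented (𝔐 := 𝔐)
  exact MHNN.isFinitelyPresented (fun l => A_fg l)

/-! ### Retraction onto the free group on the letters -/

/-- The section `FreeGroup (letters) → K0`. -/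
def sig : FreeGroup (Fin 𝔐.nL) →* 𝔐.K0 := FreeGroup.lift lam

/-- The retraction killing `ℤ^k`. -/
def ret : 𝔐.K0 →* FreeGroup (Fin 𝔐.nL) :=
  MHNN.lift 1 FreeGroup.of (by intro i a; simp)

@[simp] theorem ret_x (v : 𝔐.Vec) : ret (x v : 𝔐.K0) = 1 := by
  unfold ret x
  rw [MHNN.lift_of]
  rfl

@[simp] theorem ret_lam (l : Fin 𝔐.nL) : ret (lam l : 𝔐.K0) = FreeGroup.of l := by
  unfold ret lam
  rw [MHNN.lift_t]

@[simp] theorem ret_sig (f : FreeGroup (Fin 𝔐.nL)) : ret (sig f : 𝔐.K0) = f := by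
  have h1 : (ret (𝔐 := 𝔐)).comp sig = MonoidHom.id _ := by
    ext l
    show ret (sig (FreeGroup.of l)) = FreeGroup.of l
    rw [sig, FreeGroup.lift_apply_of, ret_lam]
  exact DFunLike.congr_fun h1 f

theorem sig_injective : Injective (sig : FreeGroup (Fin 𝔐.nL) → 𝔐.K0) := by
  intro f g h
  rw [← ret_sig f, ← ret_sig g, h]

/-- `FreeGroup (letters) → Chat`, `l ↦ chat l`. -/
def sigC : FreeGroup (Fin 𝔐.nL) →* 𝔐.K0 := FreeGroup.lift chat

@[simp] theorem ret_sigC (f : FreeGroup (Fin 𝔐.nL)) : ret (sigC f : 𝔐.K0) = f := by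
  have h1 : (ret (𝔐 := 𝔐)).comp sigC = MonoidHom.id _ := by
    ext l
    show ret (sigC (FreeGroup.of l)) = FreeGroup.of l
    rw [sigC, FreeGroup.lift_apply_of, chat, map_mul, map_mul, ret_x, ret_x, ret_lam, one_mul,
      mul_one]
  exact DFunLike.congr_fun h1 f

theorem range_sigC : (sigC : FreeGroup (Fin 𝔐.nL) →* 𝔐.K0).range = 𝔐.Chat := by
  unfold sigC Chat
  exact FreeGroup.range_lift_eq_closure

/-- Hence every `c ∈ Chat` is `sigC (ret c)`. -/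
theorem sigC_ret_of_mem {c : 𝔐.K0} (hc : c ∈ 𝔐.Chat) : sigC (ret c) = c := by
  rw [← range_sigC] at hc
  obtain ⟨f, rfl⟩ := hc
  rw [ret_sigC]

/-! ### The affine action on `ℚ^k` -/

/-- The affine extension of the letter `l` to `ℚ^k`: `ξ i ↦ b i + (mu' i / mu i) (ξ i - a i)`
(ratio `1` if `mu i = 0`). -/
def aff (l : Fin 𝔐.nL) (ξ : Fin 𝔐.k → ℚ) : Fin 𝔐.k → ℚ := fun i =>
  (𝔐.b l i : ℚ) + (if 𝔐.mu l i = 0 then 1 else (𝔐.mu' l i : ℚ) / (𝔐.mu l i : ℚ)) * (ξ i - 𝔐.a l i)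

/-- The affine action of `K0` on `ℚ^k`. (`K0_exists_lift` into `Equiv.Perm (Fin k → ℚ)`.) -/
theorem exists_ev : ∃ ev : 𝔐.K0 →* Equiv.Perm (Fin 𝔐.k → ℚ),
    (∀ (v : 𝔐.Vec) (ξ : Fin 𝔐.k → ℚ), ev (x v) ξ = fun i => (v i : ℚ) + ξ i) ∧
    ∀ (l : Fin 𝔐.nL) (ξ : Fin 𝔐.k → ℚ), ev (lam l) ξ = aff l ξ := by
  -- the ratios
  obtain ⟨r, hr⟩ : ∃ r : Fin 𝔐.nL → Fin 𝔐.k → ℚ, ∀ l i,
      r l i = if 𝔐.mu l i = 0 then 1 else (𝔐.mu' l i : ℚ) / (𝔐.mu l i : ℚ) := ⟨_, fun _ _ => rfl⟩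
  have hr0 : ∀ l i, r l i ≠ 0 := by
    intro l i
    rw [hr]
    split_ifs with h
    · exact one_ne_zero
    · have h' : 𝔐.mu' l i ≠ 0 := fun h'' => h ((𝔐.mu_zero l i).2 h'')
      exact div_ne_zero (Nat.cast_ne_zero.2 h') (Nat.cast_ne_zero.2 h)
  have hrmu : ∀ l i, r l i * (𝔐.mu l i : ℚ) = (𝔐.mu' l i : ℚ) := by
    intro l i
    rw [hr]
    split_ifs with h
    · rw [h, (𝔐.mu_zero l i).1 h]; simp
    · exact div_mul_cancel₀ _ (Nat.cast_ne_zero.2 h)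
  have haff : ∀ l (ξ : Fin 𝔐.k → ℚ) i, aff l ξ i = (𝔐.b l i : ℚ) + r l i * (ξ i - 𝔐.a l i) := by
    intro l ξ i
    rw [hr]
    rfl
  -- the letters as permutations
  let y : Fin 𝔐.nL → Equiv.Perm (Fin 𝔐.k → ℚ) := fun l =>
    { toFun := aff l
      invFun := fun η i => (𝔐.a l i : ℚ) + (η i - 𝔐.b l i) / r l i
      left_inv := by
        intro ξ
        funext i
        simp only [haff]
        field_simp [hr0 l i]
        ring
      right_inv := by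
        intro η
        funext i
        simp only [haff]
        field_simp [hr0 l i]
        ring }
  have hyapp : ∀ l ξ, y l ξ = aff l ξ := fun _ _ => rfl
  let f : 𝔐.Vec → Equiv.Perm (Fin 𝔐.k → ℚ) := fun v => Equiv.addLeft (fun i => (v i : ℚ))
  have hfapp : ∀ v (ξ : Fin 𝔐.k → ℚ), f v ξ = fun i => (v i : ℚ) + ξ i := fun _ _ => rfl
  obtain ⟨F, hF1, hF2⟩ := K0_exists_lift (𝔐 := 𝔐) f
    (by
      intro v w
      ext ξ i
      simp only [Equiv.Perm.mul_apply, hfapp, Pi.add_apply]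
      push_cast
      ring)
    y
    (by
      intro l u
      ext ξ i
      simp only [Equiv.Perm.mul_apply, hfapp, hyapp, haff, sc]
      push_cast
      linear_combination (u i : ℚ) * hrmu l i)
  exact ⟨F, fun v ξ => by rw [hF1, hfapp], fun l ξ => by rw [hF2, hyapp]⟩

/-- The affine action. -/
def ev : 𝔐.K0 →* Equiv.Perm (Fin 𝔐.k → ℚ) := exists_ev.choose

theorem ev_x (v : 𝔐.Vec) (ξ : Fin 𝔐.k → ℚ) : ev (x v) ξ = fun i => (v i : ℚ) + ξ i :=
  exists_ev.choose_spec.1 v ξ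

theorem ev_lam (l : Fin 𝔐.nL) (ξ : Fin 𝔐.k → ℚ) : ev (lam l) ξ = aff l ξ :=
  exists_ev.choose_spec.2 l ξ

/-- `Chat` fixes the origin: `0 ↦ a ↦ b ↦ 0`. -/
theorem ev_chat_zero {c : 𝔐.K0} (hc : c ∈ 𝔐.Chat) : ev c 0 = 0 := by
  unfold Chat at hc
  induction hc using Subgroup.closure_induction with
  | mem c hc =>
    obtain ⟨l, rfl⟩ := hc
    unfold chat
    rw [map_mul, map_mul, Equiv.Perm.mul_apply, Equiv.Perm.mul_apply, ev_x, ev_lam, ev_x]
    funext i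
    simp [aff]
  | one => simp
  | mul c c' _ _ h h' => rw [map_mul, Equiv.Perm.mul_apply, h', h]
  | inv c _ h =>
    rw [map_inv, Equiv.Perm.inv_eq_iff_eq]
    exact h.symm

/-- The equivariant map `Om → ℚ^k`. -/
def val : 𝔐.Om → (Fin 𝔐.k → ℚ) :=
  Quotient.lift (fun g : 𝔐.K0 => ev g 0) (by
    intro g g' h
    have h' : g⁻¹ * g' ∈ 𝔐.Chat := QuotientGroup.leftRel_apply.1 h
    have := ev_chat_zero h'
    have h2 : ev g' 0 = ev g (ev (g⁻¹ * g') 0) := by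
      rw [← Equiv.Perm.mul_apply, ← map_mul]; simp
    show ev g 0 = ev g' 0
    rw [h2, this])

theorem val_smul (g : 𝔐.K0) (ξ : 𝔐.Om) : val (g • ξ) = ev g (val ξ) := by
  induction ξ using QuotientGroup.induction_on with
  | H h =>
    show ev (g * h) 0 = ev g (ev h 0)
    rw [map_mul, Equiv.Perm.mul_apply]

theorem val_cf (α : 𝔐.Vec) : val (cf α) = fun i => (α i : ℚ) := by
  show ev (x α) 0 = fun i => (α i : ℚ)
  rw [ev_x]
  funext i
  simp

/-- In particular `cf` is injective. -/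
theorem cf_injective : Injective (cf : 𝔐.Vec → 𝔐.Om) := by
  intro α β h
  have h' := congrArg val h
  rw [val_cf, val_cf] at h'
  funext i
  exact Int.cast_injective (congrFun h' i)

end Aff

end Claimed.Agent.R152.HW
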