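/-
Row 152, module HW, helper22.   PATHS AND STUCK WORDS: the points `sig φ • cf α` of `Om`.
A signed letter `y = (l, e)` is applicable at `α` if `App y α β` for some `β`. `Path w α β`: the word `w`
(read as a group element: the RIGHTMOST letter acts first) leads from `α` to `β` through configurations.
`Stuck w α`: the last (= first acting) letter of `w` is not applicable at `α`.
MAIN FACTS. (1) every point `sigW w • cf α` is `sigW w₁ • cf β` with `w = w₁ ++ w₂`, `Path w₂ α β`, `Stuck w₁ β`;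
(2) UNIQUENESS: for reduced stuck pairs the point determines `(w, α)`;
(3) a point `sigW w • cf α` (reduced, stuck) at word distance `n` from `cf 0` has `w.length ≤ n`;
(4) growth: `|α i| + 1 ≤ C ^ (2 n)`.
-/
import Claimed.Agent.R152.HW.Aff
import Claimed.Agent.R152.H.SemiPt

set_option autoImplicit false

noncomputable section

namespace Claimed.Agent.R152.HW

open Claimed.Agent.R152.H Subgroup Function

namespace Aff

variable (𝔐 : Aff)

/-- Signed letters. -/
abbrev SL : Type := Fin 𝔐.nL × Bool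

/-- `y` leads from `α` to `β`. -/
def App (y : 𝔐.SL) (α β : 𝔐.Vec) : Prop :=
  match y.2 with
  | true => 𝔐.Step y.1 α β
  | false => 𝔐.Step y.1 β α

/-- The word `w` (rightmost letter first) leads from `α` to `β`. -/
def Path : List 𝔐.SL → 𝔐.Vec → 𝔐.Vec → Prop
  | [], α, β => α = β
  | y :: w, α, β => ∃ γ, Path w α γ ∧ 𝔐.App y γ β

/-- The first acting letter of `w` is not applicable at `α`. -/
def Stuck (w : List 𝔐.SL) (α : 𝔐.Vec) : Prop :=
  ∀ y ∈ w.getLast?, ¬ ∃ β, 𝔐.App y α β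

variable {𝔐}

/-- The element of `K0` of a word in the letters. -/
def sigW (w : List 𝔐.SL) : 𝔐.K0 := sig (FreeGroup.mk w)

@[simp] theorem sigW_nil : (sigW [] : 𝔐.K0) = 1 := by
  unfold sigW
  rw [← FreeGroup.one_eq_mk, map_one]

theorem sigW_cons (y : 𝔐.SL) (w : List 𝔐.SL) :
    (sigW (y :: w) : 𝔐.K0) = (if y.2 then lam y.1 else (lam y.1)⁻¹) * sigW w := by
  unfold sigW sig
  rw [FreeGroup.lift_mk, FreeGroup.lift_mk, List.map_cons, List.prod_cons]
  congr 1
  cases y.2 <;> simp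

theorem sigW_append (w w' : List 𝔐.SL) : (sigW (w ++ w') : 𝔐.K0) = sigW w * sigW w' := by
  unfold sigW
  rw [← FreeGroup.mul_mk, map_mul]

theorem sigW_invRev (w : List 𝔐.SL) : (sigW (FreeGroup.invRev w) : 𝔐.K0) = (sigW w)⁻¹ := by
  unfold sigW
  rw [← FreeGroup.inv_mk, map_inv]

theorem App.right_unique {y : 𝔐.SL} {α β β' : 𝔐.Vec} (h : 𝔐.App y α β) (h' : 𝔐.App y α β') :
    β = β' := by
  obtain ⟨l, e⟩ := y
  cases e
  · exact Step.left_unique h h'
  · exact Step.right_unique h h'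

theorem App.left_unique {y : 𝔐.SL} {α α' β : 𝔐.Vec} (h : 𝔐.App y α β) (h' : 𝔐.App y α' β) :
    α = α' := by
  obtain ⟨l, e⟩ := y
  cases e
  · exact Step.right_unique h h'
  · exact Step.left_unique h h'

theorem app_not_iff (l : Fin 𝔐.nL) (e : Bool) (α β : 𝔐.Vec) :
    𝔐.App (l, !e) α β ↔ 𝔐.App (l, e) β α := by
  cases e <;> exact Iff.rfl

theorem app_smul {y : 𝔐.SL} {α β : 𝔐.Vec} (h : 𝔐.App y α β) : (sigW [y] : 𝔐.K0) • cf α = cf β := by
  obtain ⟨l, e⟩ := y
  rw [sigW_cons, sigW_nil, mul_one]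
  cases e
  · exact lam_inv_smul_cf h
  · exact lam_smul_cf h

theorem path_smul {w : List 𝔐.SL} {α β : 𝔐.Vec} (h : 𝔐.Path w α β) :
    (sigW w : 𝔐.K0) • cf α = cf β := by
  induction w generalizing β with
  | nil =>
    have h' : α = β := h
    rw [sigW_nil, one_smul, h']
  | cons y w ih =>
    obtain ⟨γ, h1, h2⟩ := h
    have e : (sigW (y :: w) : 𝔐.K0) = sigW [y] * sigW w := sigW_append [y] w
    rw [e, mul_smul, ih h1, app_smul h2]

theorem path_append {w w' : List 𝔐.SL} {α β : 𝔐.Vec} :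
    𝔐.Path (w ++ w') α β ↔ ∃ γ, 𝔐.Path w' α γ ∧ 𝔐.Path w γ β := by
  induction w generalizing β with
  | nil =>
    constructor
    · intro h
      exact ⟨β, h, rfl⟩
    · rintro ⟨γ, h, h'⟩
      have h'' : γ = β := h'
      rw [← h'']
      exact h
  | cons y w ih =>
    constructor
    · rintro ⟨δ, h1, h2⟩
      obtain ⟨γ, h3, h4⟩ := ih.1 h1
      exact ⟨γ, h3, δ, h4, h2⟩
    · rintro ⟨γ, h3, δ, h4, h2⟩
      exact ⟨δ, ih.2 ⟨γ, h3, h4⟩, h2⟩

theorem Path.right_unique {w : List 𝔐.SL} {α β β' : 𝔐.Vec} (h : 𝔐.Path w α β) (h' : 𝔐.Path w α β') :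
    β = β' := by
  induction w generalizing β β' with
  | nil =>
    have h1 : α = β := h
    have h2 : α = β' := h'
    rw [← h1, ← h2]
  | cons y w ih =>
    obtain ⟨γ, h1, h2⟩ := h
    obtain ⟨γ', h1', h2'⟩ := h'
    have e := ih h1 h1'
    subst e
    exact h2.right_unique h2'

/-- (1) DECOMPOSITION. Take for `w₂` the longest suffix of `w` which is a path starting at `α`
(induction on `w.reverse`, or strong induction on the length: if `w = w' ++ [y]` and `y` is applicable at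
`α`, `App y α γ`, apply the statement to `w'`, `γ`; otherwise `w₁ = w`, `w₂ = []`). -/
theorem exists_stuck_decomp (w : List 𝔐.SL) (α : 𝔐.Vec) :
    ∃ (w₁ w₂ : List 𝔐.SL) (β : 𝔐.Vec), w = w₁ ++ w₂ ∧ 𝔐.Path w₂ α β ∧ 𝔐.Stuck w₁ β := by
  induction w using List.reverseRecOn generalizing α with
  | nil =>
    refine ⟨[], [], α, rfl, rfl, ?_⟩
    intro y hy
    simp at hy
  | append_singleton w' y ih =>
    by_cases h : ∃ γ, 𝔐.App y α γ
    · obtain ⟨γ, hγ⟩ := h
      obtain ⟨w₁, w₂, β, rfl, hp, hs⟩ := ih γ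
      refine ⟨w₁, w₂ ++ [y], β, by rw [List.append_assoc], ?_, hs⟩
      exact path_append.2 ⟨γ, ⟨α, rfl, hγ⟩, hp⟩
    · refine ⟨w' ++ [y], [], α, by rw [List.append_nil], rfl, ?_⟩
      intro y' hy'
      rw [List.getLast?_concat, Option.mem_some_iff] at hy'
      rw [← hy']
      exact h

/-- the sign of a signed letter -/
def sgnU (e : Bool) : ℤˣ := if e then 1 else -1

/-- the stable letter with its sign -/
def codeL (y : 𝔐.SL) : Fin 𝔐.nL × ℤˣ := (y.1, sgnU y.2)

/-- left factor of `chat ^ ±1` -/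
def outV (y : 𝔐.SL) : 𝔐.Vec := if y.2 then -𝔐.b y.1 else -𝔐.a y.1

/-- right factor of `chat ^ ±1` -/
def inV (y : 𝔐.SL) : 𝔐.Vec := if y.2 then 𝔐.a y.1 else 𝔐.b y.1

theorem t_zpow_sgnU (y : 𝔐.SL) : (MHNN.t y.1 : 𝔐.K0) ^ ((sgnU y.2 : ℤˣ) : ℤ) =
    if y.2 then lam y.1 else (lam y.1)⁻¹ := by
  obtain ⟨l, e⟩ := y
  cases e <;> simp [sgnU, lam]

theorem sigC_cons (y : 𝔐.SL) (rest : List 𝔐.SL) :
    (sigC (FreeGroup.mk (y :: rest)) : 𝔐.K0) =
      x (outV y) * ((if y.2 then lam y.1 else (lam y.1)⁻¹) * (x (inV y) * sigC (FreeGroup.mk rest))) := by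
  unfold sigC
  rw [FreeGroup.lift_mk, FreeGroup.lift_mk, List.map_cons, List.prod_cons]
  obtain ⟨l, e⟩ := y
  cases e
  · simp [outV, inV, chat, x_neg, mul_assoc]
  · simp [outV, inV, chat, mul_assoc]

/-- no pinch: a pinch needs the same letter with opposite signs -/
theorem cons_hyp_of_reduced (y : 𝔐.SL) (rest : List 𝔐.SL) (hz : FreeGroup.IsReduced (y :: rest))
    (w' : MHNN.NormalWord.ReducedWord 𝔐.Q 𝔐.A 𝔐.B) (hw' : w'.toList.map Prod.fst = rest.map codeL) :
    ∀ p ∈ Option.map Prod.fst w'.toList.head?,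
      w'.head ∈ HNNExtension.toSubgroup (𝔐.A y.1) (𝔐.B y.1) (sgnU y.2) → y.1 = p.1 →
        sgnU y.2 = p.2 := by
  intro p hp _ h1
  rw [← List.head?_map, hw', List.head?_map] at hp
  cases rest with
  | nil => simp at hp
  | cons y' r =>
    simp only [List.head?_cons, Option.map_some, Option.mem_def, Option.some.injEq] at hp
    subst hp
    have h2 := (FreeGroup.isReduced_cons_cons.1 hz).1 h1
    show sgnU y.2 = sgnU y'.2
    rw [h2]

theorem isReduced_tail {y : 𝔐.SL} {rest : List 𝔐.SL} (hz : FreeGroup.IsReduced (y :: rest)) :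
    FreeGroup.IsReduced rest := hz.infix ⟨[y], [], by simp⟩

/-- a reduced word of `K0` for `sigW z x(α')` -/
theorem exists_red_sigW (z : List 𝔐.SL) (hz : FreeGroup.IsReduced z) (α' : 𝔐.Vec) :
    ∃ w : MHNN.NormalWord.ReducedWord 𝔐.Q 𝔐.A 𝔐.B, w.prod 𝔐.phi = sigW z * x α' ∧
      w.toList.map Prod.fst = z.map codeL ∧ (z ≠ [] → w.head = 1) := by
  induction z with
  | nil =>
    exact ⟨MHNN.ReducedWord.ofGroup (Multiplicative.ofAdd α'), by simp [x], rfl,
      fun h => absurd rfl h⟩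
  | cons y rest ih =>
    obtain ⟨w', h1, h2, -⟩ := ih (isReduced_tail hz)
    refine ⟨MHNN.ReducedWord.cons 1 y.1 (sgnU y.2) w' (cons_hyp_of_reduced y rest hz w' h2),
      ?_, ?_, fun _ => rfl⟩
    · rw [MHNN.ReducedWord.prod_cons, map_one, one_mul, h1, t_zpow_sgnU, sigW_cons, mul_assoc]
    · simp [h2, codeL]

/-- a reduced word of `K0` for `sigC (mk z)` -/
theorem exists_red_sigC (z : List 𝔐.SL) (hz : FreeGroup.IsReduced z) :
    ∃ w : MHNN.NormalWord.ReducedWord 𝔐.Q 𝔐.A 𝔐.B, w.prod 𝔐.phi = sigC (FreeGroup.mk z) ∧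
      w.toList.map Prod.fst = z.map codeL ∧
      ∀ y ∈ z.head?, w.head = Multiplicative.ofAdd (outV y) := by
  induction z with
  | nil =>
    refine ⟨MHNN.ReducedWord.ofGroup 1, ?_, rfl, by simp⟩
    rw [MHNN.ReducedWord.prod_ofGroup, map_one]
    exact (map_one sigC).symm
  | cons y rest ih =>
    obtain ⟨w', h1, h2, -⟩ := ih (isReduced_tail hz)
    refine ⟨MHNN.ReducedWord.cons (Multiplicative.ofAdd (outV y)) y.1 (sgnU y.2)
      (MHNN.ReducedWord.smulBase (Multiplicative.ofAdd (inV y)) w')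
      (cons_hyp_of_reduced y rest hz _ h2), ?_, ?_, ?_⟩
    · rw [MHNN.ReducedWord.prod_cons, MHNN.ReducedWord.prod_smulBase, h1, t_zpow_sgnU, sigC_cons]
      rfl
    · simp [h2, codeL]
    · intro y' hy'
      simp only [List.head?_cons, Option.mem_def, Option.some.injEq] at hy'
      subst hy'
      rfl

/-- KEY (Britton, first letter only). If `x(-α) sigW z x(α') = sigC (mk z)` for a reduced word
`z = (l,e) :: rest`, then the INVERSE of the first letter is applicable at `α`.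
Proof. Both sides are products of reduced words of `K0 = MHNN` with the same sequence of stable letters
`z` (all entries of the left one are `1` except the head `x(-α)` and the last entry `x(α')`; on the right
`chat l = x(-b) lam x(a)`, `(chat l)⁻¹ = x(-a) lam⁻¹ x(b)`; no pinch can occur because `z` is freely
reduced: a pinch needs the same letter with opposite signs). `ReducedWord.map_fst_eq_and_of_prod_eq`
(or `cons_prod_eq_cons_prod_iff`) gives `head₁⁻¹ head₂ ∈ toSubgroup (-u)`: for `e = true`: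
`α - b l ∈ B l`, i.e. `Step l β α` for some `β`; for `e = false`: `α - a l ∈ A l`, i.e. `Step l α β`. -/
theorem app_of_eq_sigC (l : Fin 𝔐.nL) (e : Bool) (rest : List 𝔐.SL)
    (hz : FreeGroup.IsReduced ((l, e) :: rest)) (α α' : 𝔐.Vec)
    (h : x (-α) * sigW ((l, e) :: rest) * x α' = (sigC (FreeGroup.mk ((l, e) :: rest)) : 𝔐.K0)) :
    ∃ β, 𝔐.App (l, !e) α β := by
  obtain ⟨w1, h1, h1', h1''⟩ := exists_red_sigW _ hz α'
  obtain ⟨w2, h2, h2', h2''⟩ := exists_red_sigC _ hz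
  have hprod : (MHNN.ReducedWord.smulBase (Multiplicative.ofAdd (-α)) w1).prod 𝔐.phi =
      w2.prod 𝔐.phi := by
    rw [MHNN.ReducedWord.prod_smulBase, h1, h2, ← h, mul_assoc]
    rfl
  have key := (MHNN.ReducedWord.map_fst_eq_and_of_prod_eq 𝔐.phi hprod).2 (l, sgnU e) (by
    rw [MHNN.ReducedWord.smulBase_toList, ← List.head?_map, h1']
    simp [codeL])
  rw [MHNN.ReducedWord.smulBase_head, h1'' (by simp), mul_one, h2'' (l, e) (by simp)] at key
  cases e
  · have key' : Multiplicative.ofAdd (α - 𝔐.a l) ∈ 𝔐.A l := by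
      have e1 : (Multiplicative.ofAdd (-α))⁻¹ * Multiplicative.ofAdd (outV ((l, false) : 𝔐.SL)) =
          Multiplicative.ofAdd (α - 𝔐.a l) := by
        rw [← ofAdd_neg, ← ofAdd_add]
        simp [outV, sub_eq_add_neg]
      rw [e1] at key
      simpa [sgnU] using key
    obtain ⟨u, hu⟩ := (𝔐.mem_A_iff l _).1 key'
    exact ⟨𝔐.b l + sc (𝔐.mu' l) u, u, by rw [← hu]; abel, rfl⟩
  · have key' : Multiplicative.ofAdd (α - 𝔐.b l) ∈ 𝔐.B l := by
      have e1 : (Multiplicative.ofAdd (-α))⁻¹ * Multiplicative.ofAdd (outV ((l, true) : 𝔐.SL)) =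
          Multiplicative.ofAdd (α - 𝔐.b l) := by
        rw [← ofAdd_neg, ← ofAdd_add]
        simp [outV, sub_eq_add_neg]
      rw [e1] at key
      simpa [sgnU] using key
    obtain ⟨u, hu⟩ := (𝔐.mem_B_iff l _).1 key'
    exact ⟨𝔐.a l + sc (𝔐.mu l) u, u, rfl, by rw [← hu]; abel⟩

/-- Two points `sigW w • cf α = sigW w' • cf α'` give the equation of `app_of_eq_sigC`:
`c := x(-α) (sigW w)⁻¹ sigW w' x(α') ∈ Chat`, and `c = sigC (ret c)`, `ret c = (mk w)⁻¹ mk w'`. -/
theorem eq_sigC_of_smul_eq (w w' : List 𝔐.SL) (α α' : 𝔐.Vec)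
    (h : (sigW w : 𝔐.K0) • cf α = sigW w' • cf α') :
    x (-α) * (sig ((FreeGroup.mk w)⁻¹ * FreeGroup.mk w')) * x α' =
      (sigC ((FreeGroup.mk w)⁻¹ * FreeGroup.mk w') : 𝔐.K0) := by
  have h1 : (((sigW w * x α : 𝔐.K0)) : 𝔐.K0 ⧸ 𝔐.Chat) = ((sigW w' * x α' : 𝔐.K0) : 𝔐.K0 ⧸ 𝔐.Chat) := h
  have hc := QuotientGroup.eq.1 h1
  have e1 : (sigW w * x α : 𝔐.K0)⁻¹ * (sigW w' * x α') =
      x (-α) * (sig ((FreeGroup.mk w)⁻¹ * FreeGroup.mk w')) * x α' := by
    rw [map_mul, map_inv, x_neg]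
    unfold sigW
    group
  rw [e1] at hc
  have h2 := sigC_ret_of_mem hc
  have e2 : ret (x (-α) * (sig ((FreeGroup.mk w)⁻¹ * FreeGroup.mk w')) * x α' : 𝔐.K0) =
      (FreeGroup.mk w)⁻¹ * FreeGroup.mk w' := by
    rw [map_mul ret, map_mul ret, ret_x, ret_x, ret_sig, one_mul, mul_one]
  rw [e2] at h2
  exact h2.symm

theorem isReduced_invRev {w : List 𝔐.SL} (hw : FreeGroup.IsReduced w) :
    FreeGroup.IsReduced (FreeGroup.invRev w) := by
  rw [FreeGroup.isReduced_iff_reduce_eq] at hw ⊢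
  rw [FreeGroup.reduce_invRev, hw]

theorem stuck_tail {y : 𝔐.SL} {v : List 𝔐.SL} {α : 𝔐.Vec} (hs : 𝔐.Stuck (y :: v) α) :
    𝔐.Stuck v α := by
  intro y0 hy0
  refine hs y0 ?_
  rw [List.getLast?_cons]
  rw [Option.mem_def] at hy0 ⊢
  rw [hy0]
  rfl

/-- If `w ≠ []` and `w`, `w'` have different first letters, the last letter of `w` is applicable. -/
theorem not_stuck_of_smul_eq {w w' : List 𝔐.SL} {α α' : 𝔐.Vec} (hne : w ≠ [])
    (hw : FreeGroup.IsReduced w) (hw' : FreeGroup.IsReduced w')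
    (hj : ∀ y ∈ w.head?, ∀ y' ∈ w'.head?, y ≠ y')
    (h : (sigW w : 𝔐.K0) • cf α = sigW w' • cf α') : ¬ 𝔐.Stuck w α := by
  intro hs
  have hz : FreeGroup.IsReduced (FreeGroup.invRev w ++ w') := by
    refine List.isChain_append.2 ⟨isReduced_invRev hw, hw', ?_⟩
    intro a ha b hb h1
    unfold FreeGroup.invRev at ha
    rw [List.getLast?_reverse, List.head?_map] at ha
    obtain ⟨y, hy, rfl⟩ := Option.mem_map.1 ha
    have hne' := hj y hy b hb
    dsimp only at h1 ⊢
    by_contra h2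
    apply hne'
    refine Prod.ext h1 ?_
    cases hy2 : y.2 <;> cases hb2 : b.2 <;> simp_all
  have hsplit := List.dropLast_append_getLast hne
  set yl := w.getLast hne with hyl
  have hinv : FreeGroup.invRev w = (yl.1, !yl.2) :: FreeGroup.invRev w.dropLast := by
    conv_lhs => rw [← hsplit]
    rw [FreeGroup.invRev_append]
    rfl
  have heq := eq_sigC_of_smul_eq w w' α α' h
  rw [FreeGroup.inv_mk, FreeGroup.mul_mk, hinv, List.cons_append] at heq
  rw [hinv, List.cons_append] at hz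
  obtain ⟨β, hβ⟩ := app_of_eq_sigC yl.1 (!yl.2) _ hz α α' heq
  rw [Bool.not_not] at hβ
  exact hs yl (by rw [List.getLast?_eq_some_getLast hne]; rfl) ⟨β, hβ⟩

/-- (2) UNIQUENESS.
Proof. Induction on `w` (for all `w'`). If `w = y :: v`, `w' = y :: v'` have the same first letter, cancel
it (`sigW [y] •` is injective; `v`, `v'` are reduced; `Stuck v α`: if `v ≠ []` it has the same last letter,
if `v = []` it is vacuous). Otherwise (different first letters, or one of the words empty)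
`z := invRev w ++ w'` is REDUCED and `mk z = (mk w)⁻¹ mk w'`. If `z = []` then `w = w' = []` and
`cf α = cf α'`, use `cf_injective`. If `w ≠ []`, the first letter of `z` is the inverse of the last letter
`y` of `w`; `eq_sigC_of_smul_eq` + `app_of_eq_sigC` show that `y` is applicable at `α`: contradiction with
`Stuck w α`. If `w = []`, `w' ≠ []`: exchange the roles (`h.symm`). -/
theorem stuck_unique {w w' : List 𝔐.SL} {α α' : 𝔐.Vec}
    (hw : FreeGroup.IsReduced w) (hw' : FreeGroup.IsReduced w')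
    (hs : 𝔐.Stuck w α) (hs' : 𝔐.Stuck w' α')
    (h : (sigW w : 𝔐.K0) • cf α = sigW w' • cf α') : w = w' ∧ α = α' := by
  induction w generalizing w' with
  | nil =>
    cases w' with
    | nil =>
      refine ⟨rfl, cf_injective ?_⟩
      simpa using h
    | cons y' v' =>
      exact absurd hs' (not_stuck_of_smul_eq (by simp) hw' hw (by simp) h.symm)
  | cons y v ih =>
    cases w' with
    | nil => exact absurd hs (not_stuck_of_smul_eq (by simp) hw hw' (by simp) h)
    | cons y' v' =>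
      by_cases hy : y = y'
      · subst hy
        rw [sigW_cons, sigW_cons, mul_smul, mul_smul] at h
        have h' := smul_left_cancel _ h
        obtain ⟨e1, e2⟩ := ih (isReduced_tail hw) (isReduced_tail hw') (stuck_tail hs)
          (stuck_tail hs') h'
        exact ⟨by rw [e1], e2⟩
      · refine absurd hs (not_stuck_of_smul_eq (by simp) hw hw' ?_ h)
        intro a ha b hb
        simp only [List.head?_cons, Option.mem_def, Option.some.injEq] at ha hb
        subst ha hb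
        exact hy

/-! ### Word length in `K0` -/

variable (𝔐)

/-- Letters of the generating set `x(±e_i)`, `lam l ^ ±1` of `K0`. -/
abbrev KLet : Type := (Fin 𝔐.k ⊕ Fin 𝔐.nL) × Bool

variable {𝔐}

/-- The generators. -/
def genK (y : 𝔐.KLet) : 𝔐.K0 :=
  match y with
  | (Sum.inl i, true) => x (Pi.single i 1)
  | (Sum.inl i, false) => x (-Pi.single i 1)
  | (Sum.inr l, true) => lam l
  | (Sum.inr l, false) => (lam l)⁻¹

/-- The value of a word. -/
def evalK (W : List 𝔐.KLet) : 𝔐.K0 := (W.map genK).prod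

theorem evalK_cons (y : 𝔐.KLet) (W : List 𝔐.KLet) :
    (evalK (y :: W) : 𝔐.K0) = genK y * evalK W := by
  unfold evalK
  rw [List.map_cons, List.prod_cons]

theorem genK_not (y : 𝔐.KLet) : (genK (y.1, !y.2) : 𝔐.K0) = (genK y)⁻¹ := by
  obtain ⟨j | l, e⟩ := y <;> cases e <;> simp [genK, x_neg]

theorem evalK_surjective : Surjective (evalK : List 𝔐.KLet → 𝔐.K0) := by
  have happ : ∀ W W' : List 𝔐.KLet, (evalK (W ++ W') : 𝔐.K0) = evalK W * evalK W' := by
    intro W W'
    unfold evalK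
    rw [List.map_append, List.prod_append]
  have hinv : ∀ W : List 𝔐.KLet, ∃ W' : List 𝔐.KLet, (evalK W' : 𝔐.K0) = (evalK W)⁻¹ := by
    intro W
    induction W with
    | nil => exact ⟨[], by simp [evalK]⟩
    | cons y W ih =>
      obtain ⟨W', hW'⟩ := ih
      refine ⟨W' ++ [(y.1, !y.2)], ?_⟩
      rw [happ, hW', evalK_cons, evalK_cons, genK_not, mul_inv_rev]
      simp [evalK]
  let S : Subgroup 𝔐.K0 :=
    { carrier := Set.range (evalK : List 𝔐.KLet → 𝔐.K0)
      one_mem' := ⟨[], rfl⟩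
      mul_mem' := by
        rintro _ _ ⟨W, rfl⟩ ⟨W', rfl⟩
        exact ⟨W ++ W', happ W W'⟩
      inv_mem' := by
        rintro _ ⟨W, rfl⟩
        exact hinv W }
  have hsingle : ∀ (i : Fin 𝔐.k) (n : ℤ), (x (Pi.single i n) : 𝔐.K0) ∈ S := by
    intro i n
    have h1 : (x (Pi.single i n) : 𝔐.K0) = (x (Pi.single i 1)) ^ n := by
      unfold x
      rw [← map_zpow, ← ofAdd_zsmul]
      congr 2
      funext j
      by_cases hj : j = i
      · subst hj; simp
      · simp [Pi.single_eq_of_ne hj]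
    rw [h1]
    refine S.zpow_mem ⟨[(Sum.inl i, true)], ?_⟩ n
    simp [evalK, genK]
  have hsum : ∀ (s : Finset (Fin 𝔐.k)) (v : 𝔐.Vec), (x (∑ i ∈ s, Pi.single i (v i)) : 𝔐.K0) ∈ S := by
    intro s v
    induction s using Finset.induction_on with
    | empty => simp
    | insert a s ha ih =>
      rw [Finset.sum_insert ha, x_add]
      exact S.mul_mem (hsingle a _) ih
  have hx : ∀ v : 𝔐.Vec, (x v : 𝔐.K0) ∈ S := by
    intro v
    have h := hsum Finset.univ v
    rwa [Finset.univ_sum_single] at h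
  have hall : ∀ g : 𝔐.K0, g ∈ S := by
    intro g
    induction g using MHNN.induction_on with
    | of g => exact hx (Multiplicative.toAdd g)
    | t i => exact ⟨[(Sum.inr i, true)], by simp [evalK, genK, lam]⟩
    | mul a b ha hb => exact S.mul_mem ha hb
    | inv a ha => exact S.inv_mem ha
  exact hall

theorem evalK_append (W W' : List 𝔐.KLet) : (evalK (W ++ W') : 𝔐.K0) = evalK W * evalK W' := by
  unfold evalK
  rw [List.map_append, List.prod_append]

/-- `sigW w` is a word of length `w.length`. -/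
theorem exists_evalK_sigW (w : List 𝔐.SL) :
    ∃ W : List 𝔐.KLet, W.length = w.length ∧ evalK W = (sigW w : 𝔐.K0) := by
  induction w with
  | nil => exact ⟨[], rfl, by simp [evalK]⟩
  | cons y w ih =>
    obtain ⟨W, hl, hW⟩ := ih
    refine ⟨(Sum.inr y.1, y.2) :: W, by simp [hl], ?_⟩
    rw [evalK_cons, hW, sigW_cons]
    congr 1
    obtain ⟨l, e⟩ := y
    cases e <;> simp [genK]

/-- The retraction is 1-Lipschitz. -/
theorem length_toWord_ret_le (W : List 𝔐.KLet) : (ret (evalK W : 𝔐.K0)).toWord.length ≤ W.length := by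
  induction W with
  | nil => simp [evalK]
  | cons y W ih =>
    rw [evalK_cons, map_mul]
    have h1 := (FreeGroup.toWord_mul_sublist (ret (genK y : 𝔐.K0)) (ret (evalK W : 𝔐.K0))).length_le
    rw [List.length_append] at h1
    have h2 : (ret (genK y : 𝔐.K0)).toWord.length ≤ 1 := by
      obtain ⟨j | l, e⟩ := y <;> cases e <;> simp [genK, FreeGroup.toWord_inv]
    rw [List.length_cons]
    omega

/-- The HNN length is at most the word length (`MHNN.len_of_mul`, `MHNN.len_t_zpow_mul_le`). -/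
theorem len_evalK_le (W : List 𝔐.KLet) : MHNN.len (evalK W : 𝔐.K0) ≤ W.length := by
  induction W with
  | nil =>
    have h := MHNN.len_eq (φ := 𝔐.phi) (MHNN.ReducedWord.ofGroup (1 : 𝔐.Q))
    rw [MHNN.ReducedWord.prod_ofGroup, map_one] at h
    have e : (evalK ([] : List 𝔐.KLet) : 𝔐.K0) = 1 := rfl
    rw [e, h]
    simp
  | cons y W ih =>
    rw [evalK_cons, List.length_cons]
    obtain ⟨j | l, e⟩ := y
    · have h : MHNN.len (genK ((Sum.inl j, e) : 𝔐.KLet) * evalK W : 𝔐.K0) = MHNN.len (evalK W : 𝔐.K0) := by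
        cases e
        · exact MHNN.len_of_mul _ _
        · exact MHNN.len_of_mul _ _
      omega
    · have h : MHNN.len (genK ((Sum.inr l, e) : 𝔐.KLet) * evalK W : 𝔐.K0)
          ≤ MHNN.len (evalK W : 𝔐.K0) + 1 := by
        have h1 := MHNN.len_t_zpow_mul_le (φ := 𝔐.phi) l (sgnU e) (evalK W : 𝔐.K0)
        have h2 := t_zpow_sgnU ((l, e) : 𝔐.SL)
        dsimp only at h2
        rw [h2] at h1
        cases e
        · exact h1
        · exact h1
      omega

/-- a reduced word of `K0` for `sigW w x(α) sigC (mk z)`, `w` stuck at `α` -/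
theorem exists_red_sigW_mul (w : List 𝔐.SL) (hw : FreeGroup.IsReduced w) (α : 𝔐.Vec)
    (hs : 𝔐.Stuck w α) (z : List 𝔐.SL) (hz : FreeGroup.IsReduced z) :
    ∃ r : MHNN.NormalWord.ReducedWord 𝔐.Q 𝔐.A 𝔐.B,
      r.prod 𝔐.phi = sigW w * (x α * sigC (FreeGroup.mk z)) ∧
      r.toList.map Prod.fst = (w ++ z).map codeL ∧
      (w = [] → ∀ y ∈ z.head?, r.head = Multiplicative.ofAdd (α + outV y)) := by
  induction w with
  | nil =>
    obtain ⟨w', h1, h2, h3⟩ := exists_red_sigC z hz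
    refine ⟨MHNN.ReducedWord.smulBase (Multiplicative.ofAdd α) w', ?_, ?_, ?_⟩
    · rw [MHNN.ReducedWord.prod_smulBase, h1, sigW_nil, one_mul]
      rfl
    · rw [MHNN.ReducedWord.smulBase_toList, h2, List.nil_append]
    · intro _ y hy
      rw [MHNN.ReducedWord.smulBase_head, h3 y hy, ofAdd_add]
  | cons y rest ih =>
    obtain ⟨w', h1, h2, h3⟩ := ih (isReduced_tail hw) (stuck_tail hs)
    have hyp : ∀ p ∈ Option.map Prod.fst w'.toList.head?,
        w'.head ∈ HNNExtension.toSubgroup (𝔐.A y.1) (𝔐.B y.1) (sgnU y.2) → y.1 = p.1 →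
          sgnU y.2 = p.2 := by
      intro p hp hmem hl
      rw [← List.head?_map, h2, List.head?_map] at hp
      cases rest with
      | cons y' r =>
        simp only [List.cons_append, List.head?_cons, Option.map_some, Option.mem_def,
          Option.some.injEq] at hp
        subst hp
        have h4 := (FreeGroup.isReduced_cons_cons.1 hw).1 hl
        show sgnU y.2 = sgnU y'.2
        rw [h4]
      | nil =>
        cases z with
        | nil => simp at hp
        | cons y' r =>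
          simp only [List.nil_append, List.head?_cons, Option.map_some, Option.mem_def,
            Option.some.injEq] at hp
          subst hp
          rw [h3 rfl y' (by simp)] at hmem
          obtain ⟨l, e⟩ := y
          obtain ⟨l', e'⟩ := y'
          have hl' : l = l' := hl
          subst hl'
          show sgnU e = sgnU e'
          by_contra hne
          refine hs (l, e) (by simp) ?_
          cases e <;> cases e'
          · exact absurd rfl hne
          · have hm : Multiplicative.ofAdd (α + -𝔐.b l) ∈ 𝔐.B l := by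
              simpa [sgnU, outV] using hmem
            obtain ⟨u, hu⟩ := (𝔐.mem_B_iff l _).1 hm
            exact ⟨𝔐.a l + sc (𝔐.mu l) u, u, rfl, by rw [← hu]; abel⟩
          · have hm : Multiplicative.ofAdd (α + -𝔐.a l) ∈ 𝔐.A l := by
              simpa [sgnU, outV] using hmem
            obtain ⟨u, hu⟩ := (𝔐.mem_A_iff l _).1 hm
            exact ⟨𝔐.b l + sc (𝔐.mu' l) u, u, by rw [← hu]; abel, rfl⟩
          · exact absurd rfl hne
    refine ⟨MHNN.ReducedWord.cons 1 y.1 (sgnU y.2) w' hyp, ?_, ?_, fun h => absurd h (by simp)⟩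
    · rw [MHNN.ReducedWord.prod_cons, map_one, one_mul, h1, t_zpow_sgnU, sigW_cons, mul_assoc]
    · simp [h2, codeL]

/-- The word `sigW w x(α) sigC f` is HNN-reduced if `w` is reduced and stuck at `α`:
entries: `1` between the letters of `w`; `x(α + out)` between the last letter `lam^e` of `w` and the first
letter of `sigC f` (`chat = x(-b) lam x(a)`, `chat⁻¹ = x(-a) lam⁻¹ x(b)`); a pinch there needs the same letter
with the opposite sign and `α - a ∈ A l` (`e = true`) resp. `α - b ∈ B l` (`e = false`), i.e. the last letter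
of `w` applicable at `α`. Inside `w` and inside `f.toWord` pinches are excluded by free reducedness.
Then use `MHNN.len_eq`. -/
theorem len_sigW_mul {w : List 𝔐.SL} {α : 𝔐.Vec} (hw : FreeGroup.IsReduced w) (hs : 𝔐.Stuck w α)
    (f : FreeGroup (Fin 𝔐.nL)) :
    MHNN.len (sigW w * x α * sigC f : 𝔐.K0) = w.length + f.toWord.length := by
  obtain ⟨rw', h1, h2, -⟩ := exists_red_sigW_mul w hw α hs f.toWord FreeGroup.isReduced_toWord
  rw [FreeGroup.mk_toWord] at h1
  rw [mul_assoc, ← h1, MHNN.len_eq]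
  have h3 := congrArg List.length h2
  rw [List.length_map, List.length_map, List.length_append] at h3
  exact h3

/-- (3) The stuck part of a point is not longer than its distance from `cf 0`.
(`evalK W = sigW w x(α) c`, `c ∈ Chat`, `c = sigC (ret c)`; `len_sigW_mul`, `len_evalK_le`.) -/
theorem stuck_length_le {w : List 𝔐.SL} {α : 𝔐.Vec} (hw : FreeGroup.IsReduced w) (hs : 𝔐.Stuck w α)
    (W : List 𝔐.KLet) (h : (evalK W : 𝔐.K0) • cf 0 = sigW w • cf α) : w.length ≤ W.length := by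
  have h1 : (((evalK W * x 0 : 𝔐.K0)) : 𝔐.K0 ⧸ 𝔐.Chat) = ((sigW w * x α : 𝔐.K0) : 𝔐.K0 ⧸ 𝔐.Chat) := h
  have hc := QuotientGroup.eq.1 h1.symm
  have h2 := sigC_ret_of_mem hc
  have h3 : (evalK W : 𝔐.K0) =
      sigW w * x α * sigC (ret ((sigW w * x α : 𝔐.K0)⁻¹ * (evalK W * x 0))) := by
    rw [h2, x_zero, mul_one, mul_inv_cancel_left]
  have h4 := len_sigW_mul hw hs (ret ((sigW w * x α : 𝔐.K0)⁻¹ * (evalK W * x 0)))
  rw [← h3] at h4
  have h5 := len_evalK_le W
  omega

/-! ### Growth -/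

/-- Every generator multiplies `max |ξ i| + 1` by at most `C`. (Take
`C = 2 + Σ_{l,i} (mu l i + mu' l i + |a l i| + |b l i|)` or anything larger; the inverse of `aff l` is
`ξ i ↦ a i + (mu i / mu' i) (ξ i - b i)`; all ratios are `≤ max (mu, mu')` in absolute value because
`mu, mu' ≥ 1` when they are non-zero.) -/
theorem exists_growth (𝔐 : Aff) : ∃ c₀ : ℕ, ∀ (y : 𝔐.KLet) (ξ : Fin 𝔐.k → ℚ) (b : ℚ),
    (∀ i, |ξ i| + 1 ≤ b) → ∀ i, |ev (genK y) ξ i| + 1 ≤ 2 ^ c₀ * b := by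
  -- a common bound for all the data of the machine
  obtain ⟨M, hM⟩ : ∃ M : ℕ, ∀ l i, 𝔐.mu l i ≤ M ∧ 𝔐.mu' l i ≤ M ∧ (𝔐.a l i).natAbs ≤ M ∧
      (𝔐.b l i).natAbs ≤ M := by
    refine ⟨∑ l, ∑ i, (𝔐.mu l i + 𝔐.mu' l i + (𝔐.a l i).natAbs + (𝔐.b l i).natAbs), fun l i => ?_⟩
    have h1 : 𝔐.mu l i + 𝔐.mu' l i + (𝔐.a l i).natAbs + (𝔐.b l i).natAbs
        ≤ ∑ i, (𝔐.mu l i + 𝔐.mu' l i + (𝔐.a l i).natAbs + (𝔐.b l i).natAbs) :=
      Finset.single_le_sum (f := fun i => 𝔐.mu l i + 𝔐.mu' l i + (𝔐.a l i).natAbs + (𝔐.b l i).natAbs)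
        (fun _ _ => Nat.zero_le _) (Finset.mem_univ i)
    have h2 : ∑ i, (𝔐.mu l i + 𝔐.mu' l i + (𝔐.a l i).natAbs + (𝔐.b l i).natAbs)
        ≤ ∑ l, ∑ i, (𝔐.mu l i + 𝔐.mu' l i + (𝔐.a l i).natAbs + (𝔐.b l i).natAbs) :=
      Finset.single_le_sum
        (f := fun l => ∑ i, (𝔐.mu l i + 𝔐.mu' l i + (𝔐.a l i).natAbs + (𝔐.b l i).natAbs))
        (fun _ _ => Nat.zero_le _) (Finset.mem_univ l)
    omega
  have hM0 : (0 : ℚ) ≤ (M : ℚ) := Nat.cast_nonneg M
  have ha : ∀ l i, |(𝔐.a l i : ℚ)| ≤ (M : ℚ) := by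
    intro l i
    have h := (hM l i).2.2.1
    have h2 : |(𝔐.a l i : ℚ)| = (((𝔐.a l i).natAbs : ℕ) : ℚ) := by
      rw [Nat.cast_natAbs, Int.cast_abs]
    rw [h2]
    exact_mod_cast h
  have hb : ∀ l i, |(𝔐.b l i : ℚ)| ≤ (M : ℚ) := by
    intro l i
    have h := (hM l i).2.2.2
    have h2 : |(𝔐.b l i : ℚ)| = (((𝔐.b l i).natAbs : ℕ) : ℚ) := by
      rw [Nat.cast_natAbs, Int.cast_abs]
    rw [h2]
    exact_mod_cast h
  -- the ratios
  obtain ⟨r, hr⟩ : ∃ r : Fin 𝔐.nL → Fin 𝔐.k → ℚ, ∀ l i,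
      r l i = if 𝔐.mu l i = 0 then 1 else (𝔐.mu' l i : ℚ) / (𝔐.mu l i : ℚ) := ⟨_, fun _ _ => rfl⟩
  have haff : ∀ l (ξ : Fin 𝔐.k → ℚ) i, aff l ξ i = (𝔐.b l i : ℚ) + r l i * (ξ i - 𝔐.a l i) := by
    intro l ξ i
    rw [hr]
    rfl
  have hrpos : ∀ l i, 0 < r l i := by
    intro l i
    rw [hr]
    split_ifs with h
    · exact one_pos
    · have h' : 𝔐.mu' l i ≠ 0 := fun h'' => h ((𝔐.mu_zero l i).2 h'')
      exact div_pos (Nat.cast_pos.2 (Nat.pos_of_ne_zero h')) (Nat.cast_pos.2 (Nat.pos_of_ne_zero h))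
  have hrle : ∀ l i, r l i ≤ 1 + (M : ℚ) := by
    intro l i
    rw [hr]
    split_ifs with h
    · linarith
    · have h1 : (1 : ℚ) ≤ (𝔐.mu l i : ℚ) := by exact_mod_cast Nat.pos_of_ne_zero h
      have h2 : (𝔐.mu' l i : ℚ) ≤ (M : ℚ) := by exact_mod_cast (hM l i).2.1
      have h3 : (𝔐.mu' l i : ℚ) / (𝔐.mu l i : ℚ) ≤ (𝔐.mu' l i : ℚ) :=
        div_le_self (Nat.cast_nonneg _) h1
      linarith
  have hrinv : ∀ l i, (r l i)⁻¹ ≤ 1 + (M : ℚ) := by
    intro l i
    rw [hr]
    split_ifs with h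
    · rw [inv_one]; linarith
    · have h' : 𝔐.mu' l i ≠ 0 := fun h'' => h ((𝔐.mu_zero l i).2 h'')
      have h1 : (1 : ℚ) ≤ (𝔐.mu' l i : ℚ) := by exact_mod_cast Nat.pos_of_ne_zero h'
      have h2 : (𝔐.mu l i : ℚ) ≤ (M : ℚ) := by exact_mod_cast (hM l i).1
      have h3 : (𝔐.mu l i : ℚ) / (𝔐.mu' l i : ℚ) ≤ (𝔐.mu l i : ℚ) :=
        div_le_self (Nat.cast_nonneg _) h1
      rw [inv_div]
      linarith
  -- the generic estimate
  have key : ∀ (p q s t b : ℚ), |p| ≤ (M : ℚ) → |q| ≤ (M : ℚ) → 0 < s → s ≤ 1 + (M : ℚ) →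
      |t| + 1 ≤ b → |p + s * (t - q)| + 1 ≤ ((M : ℚ) + (1 + M) ^ 2 + 1) * b := by
    intro p q s t b hp hq hs hs' ht
    have hb1 : 1 ≤ b := le_trans (by linarith [abs_nonneg t]) ht
    have h1 : |p + s * (t - q)| ≤ |p| + s * (|t| + |q|) := by
      calc |p + s * (t - q)| ≤ |p| + |s * (t - q)| := abs_add_le _ _
        _ = |p| + s * |t - q| := by rw [abs_mul, abs_of_pos hs]
        _ ≤ |p| + s * (|t| + |q|) := by
          have := abs_sub t q
          have h2 : s * |t - q| ≤ s * (|t| + |q|) := mul_le_mul_of_nonneg_left this hs.le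
          linarith
    have h2 : s * (|t| + |q|) ≤ (1 + (M : ℚ)) * (b + M * b) := by
      have h3 : |t| + |q| ≤ b + M * b := by nlinarith [abs_nonneg t]
      have h4 : 0 ≤ |t| + |q| := add_nonneg (abs_nonneg _) (abs_nonneg _)
      calc s * (|t| + |q|) ≤ (1 + (M : ℚ)) * (|t| + |q|) := mul_le_mul_of_nonneg_right hs' h4
        _ ≤ (1 + (M : ℚ)) * (b + M * b) := mul_le_mul_of_nonneg_left h3 (by linarith)
    have h5 : |p| ≤ M * b := by nlinarith
    nlinarith
  have hC : ((M : ℚ) + (1 + M) ^ 2 + 1) ≤ 2 ^ (M + (1 + M) ^ 2 + 1) := by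
    have h := (Nat.lt_two_pow_self (n := M + (1 + M) ^ 2 + 1)).le
    exact_mod_cast h
  have hC2 : (2 : ℚ) ≤ 2 ^ (M + (1 + M) ^ 2 + 1) := by
    refine le_trans ?_ hC
    nlinarith
  refine ⟨M + (1 + M) ^ 2 + 1, ?_⟩
  rintro ⟨y, e⟩ ξ b hξ i
  have hb1 : 1 ≤ b := le_trans (by linarith [abs_nonneg (ξ i)]) (hξ i)
  have hb0 : 0 ≤ b := by linarith
  have htr : ∀ v : 𝔐.Vec, |(v i : ℚ)| ≤ 1 → |ev (x v) ξ i| + 1 ≤ 2 ^ (M + (1 + M) ^ 2 + 1) * b := by
    intro v hv
    rw [ev_x]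
    have h1 : |(v i : ℚ) + ξ i| ≤ |(v i : ℚ)| + |ξ i| := abs_add_le _ _
    have h2 := hξ i
    have h3 : 2 * b ≤ 2 ^ (M + (1 + M) ^ 2 + 1) * b := mul_le_mul_of_nonneg_right hC2 hb0
    show |(v i : ℚ) + ξ i| + 1 ≤ _
    linarith
  rcases y with j | l
  · cases e
    · show |ev (x (-Pi.single j 1)) ξ i| + 1 ≤ _
      apply htr
      by_cases hij : i = j
      · subst hij; simp
      · simp [Pi.single_eq_of_ne hij]
    · show |ev (x (Pi.single j 1)) ξ i| + 1 ≤ _
      apply htr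
      by_cases hij : i = j
      · subst hij; simp
      · simp [Pi.single_eq_of_ne hij]
  · cases e
    · show |ev (lam l)⁻¹ ξ i| + 1 ≤ _
      obtain ⟨η, hη⟩ : ∃ η, η = ev (lam l)⁻¹ ξ := ⟨_, rfl⟩
      have h1 : aff l η = ξ := by
        rw [← ev_lam, hη, ← Equiv.Perm.mul_apply, ← map_mul, mul_inv_cancel, map_one]
        rfl
      have h2 : η i = (𝔐.a l i : ℚ) + (r l i)⁻¹ * (ξ i - 𝔐.b l i) := by
        have h3 := congrFun h1 i
        rw [haff] at h3
        have h4 := (hrpos l i).ne'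
        rw [← h3]
        field_simp
        ring
      rw [← hη, h2]
      refine le_trans (key _ _ _ _ b (ha l i) (hb l i) (inv_pos.2 (hrpos l i)) (hrinv l i) (hξ i)) ?_
      exact mul_le_mul_of_nonneg_right hC hb0
    · show |ev (lam l) ξ i| + 1 ≤ _
      rw [ev_lam, haff]
      refine le_trans (key _ _ _ _ b (hb l i) (ha l i) (hrpos l i) (hrle l i) (hξ i)) ?_
      exact mul_le_mul_of_nonneg_right hC hb0

/-- The growth exponent of the machine. -/
def c₀ (𝔐 : Aff) : ℕ := (exists_growth 𝔐).choose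

theorem growth_evalK (W : List 𝔐.KLet) (ξ : Fin 𝔐.k → ℚ) (b : ℚ) (hξ : ∀ i, |ξ i| + 1 ≤ b) (i : Fin 𝔐.k) :
    |ev (evalK W) ξ i| + 1 ≤ 2 ^ (𝔐.c₀ * W.length) * b := by
  induction W generalizing i with
  | nil =>
    have h1 : (evalK ([] : List 𝔐.KLet) : 𝔐.K0) = 1 := rfl
    rw [h1, map_one]
    simpa using hξ i
  | cons y W ih =>
    have h1 : (evalK (y :: W) : 𝔐.K0) = genK y * evalK W := by
      simp [evalK]
    rw [h1, map_mul, Equiv.Perm.mul_apply]
    have h2 := (exists_growth 𝔐).choose_spec y (ev (evalK W) ξ) _ ih i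
    have h3 : (2 : ℚ) ^ (𝔐.c₀ * (y :: W).length) * b
        = 2 ^ (exists_growth 𝔐).choose * (2 ^ (𝔐.c₀ * W.length) * b) := by
      rw [List.length_cons, mul_add, mul_one, pow_add]
      show _ = 2 ^ 𝔐.c₀ * _
      ring
    rw [h3]
    exact h2

/-- (4) GROWTH. `val` is equivariant: `ev (evalK W) 0 = ev (sigW w) α`, so
`α = ev (sigW (invRev w)) (ev (evalK W) 0)`, and `w.length ≤ W.length` by (3). -/
theorem stuck_growth {w : List 𝔐.SL} {α : 𝔐.Vec} (hw : FreeGroup.IsReduced w) (hs : 𝔐.Stuck w α)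
    (W : List 𝔐.KLet) (h : (evalK W : 𝔐.K0) • cf 0 = sigW w • cf α) (i : Fin 𝔐.k) :
    |α i| + 1 ≤ 2 ^ (2 * 𝔐.c₀ * W.length) := by
  have hlen := stuck_length_le hw hs W h
  obtain ⟨W', hW'len, hW'⟩ := exists_evalK_sigW (𝔐 := 𝔐) (FreeGroup.invRev w)
  rw [FreeGroup.invRev_length] at hW'len
  have h1 := congrArg val h
  rw [val_smul, val_smul, val_cf, val_cf] at h1
  have h2 : (fun i => (α i : ℚ)) = ev (evalK (W' ++ W)) (fun i => (((0 : 𝔐.Vec) i : ℤ) : ℚ)) := by
    rw [evalK_append, map_mul, Equiv.Perm.mul_apply, h1, hW', sigW_invRev,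
      ← Equiv.Perm.mul_apply, ← map_mul, inv_mul_cancel, map_one]
    rfl
  have h3 := growth_evalK (W' ++ W) (fun i => (((0 : 𝔐.Vec) i : ℤ) : ℚ)) 1 (by intro j; simp) i
  rw [← h2, mul_one, List.length_append, hW'len] at h3
  have h4 : (2 : ℚ) ^ (𝔐.c₀ * (w.length + W.length)) ≤ 2 ^ (2 * 𝔐.c₀ * W.length) := by
    apply pow_le_pow_right₀ (by norm_num)
    calc 𝔐.c₀ * (w.length + W.length) ≤ 𝔐.c₀ * (W.length + W.length) :=
          Nat.mul_le_mul_left _ (by omega)
      _ = 2 * 𝔐.c₀ * W.length := by ring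
  have h5 : |(α i : ℚ)| + 1 ≤ 2 ^ (2 * 𝔐.c₀ * W.length) := le_trans h3 h4
  exact_mod_cast h5

end Aff

end Claimed.Agent.R152.HW
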