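/-
Row 152, module HW, helper22.   THE HARDWARE GROUP `Hs = ⟨K0, t | [t, Chat]⟩ = FreeGroup Om ⋊ K0`,
the subgroups `K = ⟨T z, run letters⟩`, `P ξ = ⟨T ξ, blocks, other input letters⟩`.
`K = FreeGroup (R • cf z) ⋊ R`, `P ξ = FreeGroup (U • cf ξ) ⋊ U`.
-/
import Claimed.Agent.R152.HW.Path
import Claimed.Agent.R152.HW.Blocks

set_option autoImplicit false

noncomputable section

namespace Claimed.Agent.R152.HW

open Claimed.Agent.R152.H Subgroup Function SemidirectProduct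

/-- Input/run structure of an affine machine. `JM` = run letters (deterministic, `z` terminal);
input letters = `la`, `lf`, `o j` (their images are pairwise disjoint; `r` = the input register). -/
structure Inp (𝔐 : Aff) where
  /-- push digit 1 -/
  la : Fin 𝔐.nL
  /-- push digit 2 -/
  lf : Fin 𝔐.nL
  /-- number of other input letters -/
  nO : ℕ
  /-- the other input letters (fuel, switches, ...) -/
  o : Fin nO → Fin 𝔐.nL
  la_ne_lf : la ≠ lf
  o_inj : Injective o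
  o_ne_la : ∀ j, o j ≠ la
  o_ne_lf : ∀ j, o j ≠ lf
  /-- the run letters -/
  JM : Set (Fin 𝔐.nL)
  la_notMem : la ∉ JM
  lf_notMem : lf ∉ JM
  o_notMem : ∀ j, o j ∉ JM
  /-- the accepting configuration -/
  z : 𝔐.Vec
  /-- (M1) determinism of the run letters on all of `ℤ^k` -/
  det : ∀ l ∈ JM, ∀ l' ∈ JM, ∀ α β β', 𝔐.Step l α β → 𝔐.Step l' α β' → l = l'
  /-- (M3) `z` is terminal -/
  term : ∀ l ∈ JM, ∀ β, ¬ 𝔐.Step l z β
  /-- (T1) the images of distinct input letters are disjoint -/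
  img : ∀ l ∈ ({la, lf} ∪ Set.range o : Set (Fin 𝔐.nL)), ∀ l' ∈ ({la, lf} ∪ Set.range o : Set (Fin 𝔐.nL)),
    ∀ α α' β, 𝔐.Step l α β → 𝔐.Step l' α' β → l = l'
  /-- the input register -/
  r : Fin 𝔐.k
  /-- (T3) `lf` at least doubles the input register -/
  grow_f : ∀ α β, 𝔐.Step lf α β → 0 ≤ α r → 2 * α r + 1 ≤ β r
  /-- (T3) no input letter decreases it -/
  grow : ∀ l ∈ ({la, lf} ∪ Set.range o : Set (Fin 𝔐.nL)), ∀ α β, 𝔐.Step l α β → 0 ≤ α r → α r ≤ β r

namespace Inp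

variable {𝔐 : Aff} (I : Inp 𝔐)

/-- The input letters. -/
def Jin : Set (Fin 𝔐.nL) := {I.la, I.lf} ∪ Set.range I.o

/-- (T2) admissible start configurations. -/
def Start (ξ : 𝔐.Vec) : Prop := (∀ l ∈ I.Jin, ∀ α, ¬ 𝔐.Step l α ξ) ∧ 0 ≤ ξ I.r

/-- The block code with `D` blocks and cores of length `N + 1`. -/
def code (D N : ℕ) : Code (Fin 𝔐.nL) where
  la := I.la
  lf := I.lf
  nO := I.nO
  o := I.o
  D := D
  N := N + 1
  la_ne_lf := I.la_ne_lf
  o_inj := I.o_inj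
  o_ne_la := I.o_ne_la
  o_ne_lf := I.o_ne_lf
  N_pos := Nat.succ_pos N

/-- `α` runs into the accepting configuration. -/
def Reach (α : 𝔐.Vec) : Prop :=
  Relation.ReflTransGen (fun α β => ∃ l ∈ I.JM, 𝔐.Step l α β) α I.z

theorem disjoint_JM_Jin : Disjoint I.JM I.Jin := by
  rw [Set.disjoint_left]
  intro l hl hl'
  simp only [Jin, Set.mem_union, Set.mem_insert_iff, Set.mem_singleton_iff, Set.mem_range] at hl'
  rcases hl' with (rfl | rfl) | ⟨j, rfl⟩
  · exact I.la_notMem hl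
  · exact I.lf_notMem hl
  · exact I.o_notMem j hl

/-! ### Paths of run letters -/

/-- Undirected connection with `z` = running into `z` (determinism, `z` terminal).
Induction on `w`. `Path (y :: w) z α`: `Path w z γ`, `Reach γ`, `App y γ α`. `y = (l,false)`: `Step l α γ`, so `α → γ →* z`.
`y = (l,true)`: `Step l γ α`; `γ ≠ z` (terminal), so `γ → γ' →* z`, and `γ' = α` by determinism. -/
theorem reach_of_path {w : List 𝔐.SL} (hw : ∀ y ∈ w, y.1 ∈ I.JM) {α : 𝔐.Vec} (h : 𝔐.Path w I.z α) :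
    I.Reach α := by
  induction w generalizing α with
  | nil =>
    have e : I.z = α := h
    rw [← e]
    exact Relation.ReflTransGen.refl
  | cons y w ih =>
    obtain ⟨γ, h1, h2⟩ := h
    have hγ : I.Reach γ := ih (fun y hy => hw y (List.mem_cons_of_mem _ hy)) h1
    have hy : y.1 ∈ I.JM := hw y List.mem_cons_self
    obtain ⟨l, e⟩ := y
    cases e
    · have hs : 𝔐.Step l α γ := h2
      exact Relation.ReflTransGen.head ⟨l, hy, hs⟩ hγ
    · have hs : 𝔐.Step l γ α := h2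
      rcases Relation.ReflTransGen.cases_head hγ with rfl | ⟨γ', ⟨l', hl', hs'⟩, hrest⟩
      · exact absurd hs (I.term l hy α)
      · have e1 : l = l' := I.det l hy l' hl' γ α γ' hs hs'
        subst e1
        have e2 : α = γ' := hs.right_unique hs'
        rw [e2]
        exact hrest

/-- Conversely. -/
theorem exists_path_of_reach {α : 𝔐.Vec} (h : I.Reach α) :
    ∃ w : List 𝔐.SL, (∀ y ∈ w, y.1 ∈ I.JM) ∧ 𝔐.Path w I.z α := by
  unfold Reach at h
  induction h using Relation.ReflTransGen.head_induction_on with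
  | refl => exact ⟨[], by simp, rfl⟩
  | head hab _ ih =>
    obtain ⟨l, hl, hs⟩ := hab
    obtain ⟨w, hw, hp⟩ := ih
    refine ⟨(l, false) :: w, ?_, _, hp, hs⟩
    intro y hy
    rcases List.mem_cons.1 hy with rfl | hy
    · exact hl
    · exact hw y hy

/-! ### Paths of input letters -/

/-- A reduced path of input letters starting at a start configuration is positive.
Induction on `w`: `Path (y :: w) ξ β`, `Path w ξ γ`, `App y γ β`, `w` positive. If `y = (l,false)`: `Step l β γ`, so `γ` is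
in the image of `l`. `w = []`: `γ = ξ`, contradiction with `Start`. `w = (l',true) :: _`: `γ` is in the image of `l'`, so
`l = l'` by `img`, contradiction with reducedness. -/
theorem pos_of_path {ξ : 𝔐.Vec} (hξ : I.Start ξ) {w : List 𝔐.SL} (hw : ∀ y ∈ w, y.1 ∈ I.Jin)
    (hr : FreeGroup.IsReduced w) {β : 𝔐.Vec} (h : 𝔐.Path w ξ β) : ∀ y ∈ w, y.2 = true := by
  induction w generalizing β with
  | nil => simp
  | cons y w ih =>
    obtain ⟨γ, h1, h2⟩ := h
    have hr' : FreeGroup.IsReduced w := hr.infix ⟨[y], [], by simp⟩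
    have hpos := ih (fun y hy => hw y (List.mem_cons_of_mem _ hy)) hr' h1
    intro y' hy'
    rcases List.mem_cons.1 hy' with rfl | hy'
    · obtain ⟨l, e⟩ := y'
      cases e
      · exfalso
        have hs : 𝔐.Step l β γ := h2
        have hl : l ∈ I.Jin := hw _ List.mem_cons_self
        cases w with
        | nil =>
          have e : ξ = γ := h1
          subst e
          exact hξ.1 l hl β hs
        | cons y2 w2 =>
          obtain ⟨δ, h3, h4⟩ := h1
          obtain ⟨l2, e2⟩ := y2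
          have he2 : e2 = true := hpos (l2, e2) List.mem_cons_self
          subst he2
          have hs2 : 𝔐.Step l2 δ γ := h4
          have hl2 : l2 ∈ I.Jin := hw (l2, true) (by simp)
          have e : l = l2 := I.img l hl l2 hl2 β δ γ hs hs2
          subst e
          have h5 := (FreeGroup.isReduced_cons_cons.1 hr).1 rfl
          simp at h5
      · rfl
    · exact hpos y' hy'

/-- The positive input paths form a tree. -/
theorem path_unique {ξ : 𝔐.Vec} (hξ : I.Start ξ) {w w' : List 𝔐.SL} (hw : ∀ y ∈ w, y.1 ∈ I.Jin)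
    (hw' : ∀ y ∈ w', y.1 ∈ I.Jin) (hp : ∀ y ∈ w, y.2 = true) (hp' : ∀ y ∈ w', y.2 = true) {β : 𝔐.Vec}
    (h : 𝔐.Path w ξ β) (h' : 𝔐.Path w' ξ β) : w = w' := by
  induction w generalizing w' β with
  | nil =>
    have e : ξ = β := h
    cases w' with
    | nil => rfl
    | cons y' v' =>
      exfalso
      obtain ⟨γ, _, h2⟩ := h'
      obtain ⟨l, e'⟩ := y'
      have he : e' = true := hp' _ List.mem_cons_self
      subst he
      have hs : 𝔐.Step l γ β := h2
      rw [← e] at hs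
      exact hξ.1 l (hw' _ List.mem_cons_self) γ hs
  | cons y v ih =>
    cases w' with
    | nil =>
      exfalso
      have e : ξ = β := h'
      obtain ⟨γ, _, h2⟩ := h
      obtain ⟨l, e'⟩ := y
      have he : e' = true := hp _ List.mem_cons_self
      subst he
      have hs : 𝔐.Step l γ β := h2
      rw [← e] at hs
      exact hξ.1 l (hw _ List.mem_cons_self) γ hs
    | cons y' v' =>
      obtain ⟨γ, h1, h2⟩ := h
      obtain ⟨γ', h1', h2'⟩ := h'
      obtain ⟨l, e⟩ := y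
      obtain ⟨l', e'⟩ := y'
      have he : e = true := hp _ List.mem_cons_self
      have he' : e' = true := hp' _ List.mem_cons_self
      subst he he'
      have hs : 𝔐.Step l γ β := h2
      have hs' : 𝔐.Step l' γ' β := h2'
      have e1 : l = l' := I.img l (hw _ List.mem_cons_self) l' (hw' _ List.mem_cons_self) γ γ' β hs hs'
      subst e1
      have e2 : γ = γ' := hs.left_unique hs'
      subst e2
      rw [ih (fun y hy => hw y (List.mem_cons_of_mem _ hy))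
        (fun y hy => hw' y (List.mem_cons_of_mem _ hy))
        (fun y hy => hp y (List.mem_cons_of_mem _ hy))
        (fun y hy => hp' y (List.mem_cons_of_mem _ hy)) h1 h1']

theorem two_pow_le_aux {ξ : 𝔐.Vec} (hξ : I.Start ξ) {w : List 𝔐.SL} (hw : ∀ y ∈ w, y.1 ∈ I.Jin)
    (hp : ∀ y ∈ w, y.2 = true) {β : 𝔐.Vec} (h : 𝔐.Path w ξ β) :
    0 ≤ β I.r ∧ (2 : ℤ) ^ (w.filter (fun y => decide (y.1 = I.lf))).length ≤ β I.r + 1 := by
  induction w generalizing β with
  | nil =>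
    have e : ξ = β := h
    subst e
    exact ⟨hξ.2, by simpa using hξ.2⟩
  | cons y w ih =>
    obtain ⟨γ, h1, h2⟩ := h
    obtain ⟨l, e⟩ := y
    have he : e = true := hp _ List.mem_cons_self
    subst he
    have hs : 𝔐.Step l γ β := h2
    have hl : l ∈ I.Jin := hw _ List.mem_cons_self
    obtain ⟨g0, g1⟩ := ih (fun y hy => hw y (List.mem_cons_of_mem _ hy))
      (fun y hy => hp y (List.mem_cons_of_mem _ hy)) h1
    have hg := I.grow l hl γ β hs g0
    by_cases hlf : l = I.lf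
    · subst hlf
      have hf := I.grow_f γ β hs g0
      refine ⟨by linarith, ?_⟩
      rw [List.filter_cons_of_pos (by simp), List.length_cons, pow_succ]
      linarith
    · refine ⟨by linarith, ?_⟩
      rw [List.filter_cons_of_neg (by simpa using hlf)]
      linarith

/-- Growth of the input register along a positive input path. -/
theorem two_pow_le_of_path {ξ : 𝔐.Vec} (hξ : I.Start ξ) {w : List 𝔐.SL} (hw : ∀ y ∈ w, y.1 ∈ I.Jin)
    (hp : ∀ y ∈ w, y.2 = true) {β : 𝔐.Vec} (h : 𝔐.Path w ξ β) :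
    (2 : ℤ) ^ (w.filter (fun y => decide (y.1 = I.lf))).length ≤ β I.r + 1 := by
  exact (I.two_pow_le_aux hξ hw hp h).2

/-- THE ORBIT OF A START CONFIGURATION UNDER THE FREE GROUP ON THE INPUT LETTERS IS FREE.
`φ.toWord = w₁ ++ w₂`, `Path w₂ ξ β`, `Stuck w₁ β` (`exists_stuck_decomp`); `stuck_unique` against `([], ξ)`: `w₁ = []`, `β = ξ`;
`w₂` is positive (`pos_of_path`) and equal to `[]` by `path_unique`. -/
theorem eq_one_of_smul_eq {ξ : 𝔐.Vec} (hξ : I.Start ξ) (φ : FreeGroup (Fin 𝔐.nL))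
    (hφ : ∀ y ∈ φ.toWord, y.1 ∈ I.Jin) (h : (Aff.sig φ : 𝔐.K0) • Aff.cf ξ = Aff.cf ξ) : φ = 1 := by
  obtain ⟨w₁, w₂, β, hw, hp, hs⟩ := Aff.exists_stuck_decomp φ.toWord ξ
  have hred : FreeGroup.IsReduced (w₁ ++ w₂) := hw ▸ FreeGroup.isReduced_toWord
  have r1 : FreeGroup.IsReduced w₁ := hred.infix ⟨[], w₂, by simp⟩
  have r2 : FreeGroup.IsReduced w₂ := hred.infix ⟨w₁, [], by simp⟩
  have e0 : (Aff.sigW φ.toWord : 𝔐.K0) = Aff.sig φ := by
    show Aff.sig (FreeGroup.mk φ.toWord) = _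
    rw [FreeGroup.mk_toWord]
  have e1 : (Aff.sig φ : 𝔐.K0) = Aff.sigW w₁ * Aff.sigW w₂ := by
    rw [← Aff.sigW_append, ← hw, e0]
  have e2 : (Aff.sigW w₁ : 𝔐.K0) • Aff.cf β = (Aff.sigW [] : 𝔐.K0) • Aff.cf ξ := by
    rw [Aff.sigW_nil, one_smul, ← Aff.path_smul hp, ← mul_smul, ← e1, h]
  have hs0 : 𝔐.Stuck [] ξ := by
    intro y hy
    simp at hy
  obtain ⟨e3, e4⟩ := Aff.stuck_unique r1 FreeGroup.IsReduced.nil hs hs0 e2
  subst e3
  subst e4
  have hw2 : ∀ y ∈ w₂, y.1 ∈ I.Jin := fun y hy => hφ y (by rw [hw]; simpa using hy)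
  have hpos := I.pos_of_path hξ hw2 r2 hp
  have e5 : w₂ = [] := I.path_unique hξ hw2 (by simp) hpos (by simp) hp rfl
  rw [e5] at hw
  exact FreeGroup.toWord_eq_nil_iff.1 (by simpa using hw)

/-! ### The groups -/

variable (𝔐) in
/-- The hardware group. -/
abbrev _root_.Claimed.Agent.R152.HW.Aff.Hs : Type := Semi 𝔐.K0 𝔐.Chat

/-- The marker at the configuration `α`:  `T α = x α t x(-α)`. -/
def T (α : 𝔐.Vec) : 𝔐.Hs := Semi.tt (Aff.cf α)

/-- The group of the run letters. -/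
def R : Subgroup 𝔐.K0 := closure (Aff.lam '' I.JM)

/-- The input group `U = ⟨blocks, other input letters⟩`. -/
def U (D N : ℕ) : Subgroup 𝔐.K0 := ((I.code D N).blkHom.range).map Aff.sig

/-- `K = ⟨T z, run letters⟩`. -/
def K : Subgroup 𝔐.Hs := Semi.SubPt I.R (Aff.cf I.z)

/-- `P ξ = ⟨T ξ, blocks, other input letters⟩`. -/
def P (D N : ℕ) (ξ : 𝔐.Vec) : Subgroup 𝔐.Hs := Semi.SubPt (I.U D N) (Aff.cf ξ)

/-- The element of `Hs` of a `U`-word. -/
def uel (D N : ℕ) (ν : FreeGroup (I.code D N).UL) : 𝔐.Hs := inr (Aff.sig ((I.code D N).blkHom ν))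

theorem Hs_isFinitelyPresented : Group.IsFinitelyPresented 𝔐.Hs := by
  have := Aff.K0_isFinitelyPresented (𝔐 := 𝔐)
  exact Semi.isFinitelyPresented Aff.Chat_fg

/-- `⟨closure S, tt ξ⟩ = ⟨S, tt ξ⟩`. -/
theorem subPt_closure_eq {H : Type*} [Group H] {C : Subgroup H} (S : Set H) (ξ : H ⧸ C) :
    Semi.SubPt (closure S) ξ = closure ((inr : H → Semi H C) '' S ∪ {Semi.tt ξ}) := by
  apply le_antisymm
  · refine (closure_le _).2 ?_
    rintro y (⟨u, hu, rfl⟩ | rfl)
    · have h : (closure S).map (inr : H →* Semi H C) ≤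
          closure ((inr : H → Semi H C) '' S ∪ {Semi.tt ξ}) := by
        rw [MonoidHom.map_closure]
        exact Subgroup.closure_mono Set.subset_union_left
      exact h ⟨u, hu, rfl⟩
    · exact subset_closure (Or.inr rfl)
  · apply Subgroup.closure_mono
    apply Set.union_subset_union_left
    exact Set.image_mono subset_closure

theorem K_fg : (I.K).FG := by
  refine (Subgroup.fg_iff _).2 ⟨(inr : 𝔐.K0 → 𝔐.Hs) '' (Aff.lam '' I.JM) ∪ {Semi.tt (Aff.cf I.z)}, ?_, ?_⟩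
  · exact (subPt_closure_eq _ _).symm
  · exact (((Set.toFinite I.JM).image _).image _).union (Set.finite_singleton _)

theorem mem_R_iff (g : 𝔐.K0) :
    g ∈ I.R ↔ ∃ φ : FreeGroup (Fin 𝔐.nL), (∀ y ∈ φ.toWord, y.1 ∈ I.JM) ∧ g = Aff.sig φ := by
  have h : I.R = (closure (FreeGroup.of '' I.JM)).map (Aff.sig : FreeGroup (Fin 𝔐.nL) →* 𝔐.K0) := by
    rw [MonoidHom.map_closure, ← Set.image_comp]
    unfold R
    refine congrArg Subgroup.closure (Set.image_congr ?_)
    intro l _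
    show Aff.lam l = Aff.sig (FreeGroup.of l)
    rw [Aff.sig, FreeGroup.lift_apply_of]
  rw [h, Subgroup.mem_map]
  constructor
  · rintro ⟨φ, hφ, rfl⟩
    exact ⟨φ, (freeGroup_mem_closure_of_image_iff _ _).1 hφ, rfl⟩
  · rintro ⟨φ, hφ, rfl⟩
    exact ⟨φ, (freeGroup_mem_closure_of_image_iff _ _).2 hφ, rfl⟩

theorem mem_U_iff (D N : ℕ) (g : 𝔐.K0) :
    g ∈ I.U D N ↔ ∃ ν : FreeGroup (I.code D N).UL, g = Aff.sig ((I.code D N).blkHom ν) := by
  unfold U
  rw [Subgroup.mem_map]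
  constructor
  · rintro ⟨_, ⟨ν, rfl⟩, rfl⟩
    exact ⟨ν, rfl⟩
  · rintro ⟨ν, rfl⟩
    exact ⟨_, ⟨ν, rfl⟩, rfl⟩

theorem letters_U (D N : ℕ) (ν : FreeGroup (I.code D N).UL) :
    ∀ y ∈ ((I.code D N).blkHom ν).toWord, y.1 ∈ I.Jin := by
  intro y hy
  rcases (I.code D N).letters_blkHom ν y hy with h | h | h
  · exact Or.inl (Or.inl h)
  · exact Or.inl (Or.inr h)
  · exact Or.inr h

theorem T_mem_P (D N : ℕ) (ξ : 𝔐.Vec) : T ξ ∈ I.P D N ξ := by
  exact Semi.tt_mem_subPt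

theorem uel_mem_P (D N : ℕ) (ξ : 𝔐.Vec) (ν : FreeGroup (I.code D N).UL) : I.uel D N ν ∈ I.P D N ξ := by
  exact Semi.inr_mem_subPt ((I.mem_U_iff D N _).2 ⟨ν, rfl⟩)

/-- `P ξ` is generated by the marker and the images of the generators of `U`. -/
theorem P_eq_closure (D N : ℕ) (ξ : 𝔐.Vec) :
    I.P D N ξ = closure ({T ξ} ∪ Set.range (fun y => I.uel D N (FreeGroup.of y))) := by
  have h : I.U D N = closure (Set.range
      (fun y => (Aff.sig ((I.code D N).blkHom (FreeGroup.of y)) : 𝔐.K0))) := by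
    have h1 : I.U D N = ((Aff.sig : FreeGroup (Fin 𝔐.nL) →* 𝔐.K0).comp (I.code D N).blkHom).range := by
      unfold U
      rw [MonoidHom.range_comp]
    rw [h1, MonoidHom.range_eq_map, ← FreeGroup.closure_range_of, MonoidHom.map_closure,
      ← Set.range_comp]
    rfl
  unfold P
  rw [h, subPt_closure_eq, ← Set.range_comp, Set.union_comm]
  rfl

/-- `P ξ` IS FREE on the marker, the blocks and the other input letters (universal property).
`Semi.exists_lift_subPt` with `f = (FreeGroup.lift f₀) ∘ (sig ∘ blkHom)⁻¹` (`sig`, `blkHom` injective); the stabiliser of `cf ξ`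
in `U` is trivial by `eq_one_of_smul_eq`. -/
theorem exists_lift_P (D N : ℕ) {ξ : 𝔐.Vec} (hξ : I.Start ξ) {M : Type*} [Group M] (m : M)
    (f₀ : (I.code D N).UL → M) :
    ∃ π : I.P D N ξ →* M, π ⟨T ξ, I.T_mem_P D N ξ⟩ = m ∧
      ∀ ν, π ⟨I.uel D N ν, I.uel_mem_P D N ξ ν⟩ = FreeGroup.lift f₀ ν := by
  let e : FreeGroup (I.code D N).UL →* 𝔐.K0 :=
    (Aff.sig : FreeGroup (Fin 𝔐.nL) →* 𝔐.K0).comp (I.code D N).blkHom
  have he : Injective e := Aff.sig_injective.comp (I.code D N).blkHom_injective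
  have hU : I.U D N = e.range := by
    unfold U
    rw [MonoidHom.range_comp]
  let f : I.U D N →* M :=
    (FreeGroup.lift f₀).comp
      (((MulEquiv.subgroupCongr hU).trans (MonoidHom.ofInjective he).symm).toMonoidHom)
  have hf : ∀ (ν : FreeGroup (I.code D N).UL) (h : e ν ∈ I.U D N), f ⟨e ν, h⟩ = FreeGroup.lift f₀ ν := by
    intro ν h
    show FreeGroup.lift f₀ ((MonoidHom.ofInjective he).symm (MulEquiv.subgroupCongr hU ⟨e ν, h⟩)) = _
    congr 1
    rw [MulEquiv.symm_apply_eq]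
    apply Subtype.ext
    rfl
  obtain ⟨F, hF1, hF2⟩ := Semi.exists_lift_subPt (I.U D N) (Aff.cf ξ) f m (by
    intro c hc hcξ
    obtain ⟨ν, rfl⟩ := (I.mem_U_iff D N c).1 hc
    have h1 := I.eq_one_of_smul_eq hξ _ (I.letters_U D N ν) hcξ
    have h2 : ν = 1 := (I.code D N).blkHom_injective (by rw [h1, map_one])
    subst h2
    have h4 : f ⟨Aff.sig ((I.code D N).blkHom 1), hc⟩ = 1 := (hf 1 hc).trans (map_one _)
    rw [h4, one_mul, mul_one])
  refine ⟨F, hF2 _, ?_⟩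
  intro ν
  have h := hF1 (e ν) ((I.mem_U_iff D N _).2 ⟨ν, rfl⟩) (I.uel_mem_P D N ξ ν)
  rw [hf] at h
  exact h

/-- Accepted `U`-words. -/
def Acc (D N : ℕ) (ξ : 𝔐.Vec) (ν : FreeGroup (I.code D N).UL) : Prop :=
  ∃ α, 𝔐.Path ((I.code D N).blkHom ν).toWord ξ α ∧ I.Reach α

theorem pos_of_acc (D N : ℕ) {ξ : 𝔐.Vec} (hξ : I.Start ξ) {ν : FreeGroup (I.code D N).UL}
    (h : I.Acc D N ξ ν) : ∀ y ∈ ν.toWord, y.2 = true := by
  obtain ⟨α, hp, -⟩ := h
  exact (I.code D N).pos_of_pos ν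
    (I.pos_of_path hξ (I.letters_U D N ν) FreeGroup.isReduced_toWord hp)

/-- The points common to the two orbits.
`sig ρ • cf z = sig φ • cf ξ` (`ρ` run letters, `φ` input letters). Decompose both (`exists_stuck_decomp`), `stuck_unique`: the stuck
parts agree; their letters lie in `JM ∩ Jin = ∅`, so they are empty: the point is `cf α`, `Path ρ.toWord z α` (so `Reach α`),
`Path φ.toWord ξ α`. -/
theorem orbits_inter {ξ : 𝔐.Vec} (ρ φ : FreeGroup (Fin 𝔐.nL)) (hρ : ∀ y ∈ ρ.toWord, y.1 ∈ I.JM)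
    (hφ : ∀ y ∈ φ.toWord, y.1 ∈ I.Jin)
    (h : (Aff.sig ρ : 𝔐.K0) • Aff.cf I.z = Aff.sig φ • Aff.cf ξ) :
    ∃ α, I.Reach α ∧ 𝔐.Path φ.toWord ξ α := by
  obtain ⟨w₁, w₂, β, hw, hp, hs⟩ := Aff.exists_stuck_decomp ρ.toWord I.z
  obtain ⟨v₁, v₂, γ, hv, hp', hs'⟩ := Aff.exists_stuck_decomp φ.toWord ξ
  have e1 : (Aff.sig ρ : 𝔐.K0) • Aff.cf I.z = Aff.sigW w₁ • Aff.cf β := by
    have e : (Aff.sig ρ : 𝔐.K0) = Aff.sigW (w₁ ++ w₂) := by
      rw [← hw]
      unfold Aff.sigW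
      rw [FreeGroup.mk_toWord]
    rw [e, Aff.sigW_append, mul_smul, Aff.path_smul hp]
  have e2 : (Aff.sig φ : 𝔐.K0) • Aff.cf ξ = Aff.sigW v₁ • Aff.cf γ := by
    have e : (Aff.sig φ : 𝔐.K0) = Aff.sigW (v₁ ++ v₂) := by
      rw [← hv]
      unfold Aff.sigW
      rw [FreeGroup.mk_toWord]
    rw [e, Aff.sigW_append, mul_smul, Aff.path_smul hp']
  have r1 : FreeGroup.IsReduced w₁ :=
    (FreeGroup.isReduced_toWord (x := ρ)).infix ⟨[], w₂, by rw [hw]; rfl⟩
  have r2 : FreeGroup.IsReduced v₁ :=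
    (FreeGroup.isReduced_toWord (x := φ)).infix ⟨[], v₂, by rw [hv]; rfl⟩
  obtain ⟨h1, h2⟩ := Aff.stuck_unique r1 r2 hs hs' (by rw [← e1, ← e2]; exact h)
  have hnil : w₁ = [] := by
    cases hw1 : w₁ with
    | nil => rfl
    | cons y t =>
      exfalso
      have m1 : y.1 ∈ I.JM := hρ y (by rw [hw, hw1]; simp)
      have m2 : y.1 ∈ I.Jin := hφ y (by rw [hv, ← h1, hw1]; simp)
      exact Set.disjoint_left.1 I.disjoint_JM_Jin m1 m2
  refine ⟨β, I.reach_of_path (w := ρ.toWord) hρ ?_, ?_⟩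
  · rw [hw, hnil]
    exact hp
  · rw [hv, ← h1, hnil, h2]
    exact hp'

/-- `K ∩ P ξ` is (freely) generated by the markers of the accepted inputs.
`(τ,g) ∈ K ∩ P`: `g ∈ R ∩ U`, `ret g` has its letters in `JM ∩ Jin = ∅`, so `g = 1`. The letters of `τ` lie in both orbits
(`Semi.mem_subPt_iff'`), use `orbits_inter`. Conversely `uel ν T ξ (uel ν)⁻¹ = tt (cf α) ∈ K` because `cf α ∈ R • cf z`
(`exists_path_of_reach`, `path_smul`). -/
theorem K_inf_P (D N : ℕ) {ξ : 𝔐.Vec} (hξ : I.Start ξ) :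
    I.K ⊓ I.P D N ξ =
      closure {h | ∃ ν, I.Acc D N ξ ν ∧ h = I.uel D N ν * T ξ * (I.uel D N ν)⁻¹} := by
  classical
  apply le_antisymm
  · rintro x ⟨hxK, hxP⟩
    have hK := (Semi.mem_subPt_iff' I.R (Aff.cf I.z) x).1 hxK
    have hP := (Semi.mem_subPt_iff' (I.U D N) (Aff.cf ξ) x).1 hxP
    -- the right component is trivial
    obtain ⟨ρ, hρ, hρg⟩ := (I.mem_R_iff _).1 hK.1
    obtain ⟨ν, hνg⟩ := (I.mem_U_iff D N _).1 hP.1
    have hρν : ρ = (I.code D N).blkHom ν := Aff.sig_injective (hρg.symm.trans hνg)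
    have hρ1 : ρ = 1 := by
      rw [← FreeGroup.toWord_eq_nil_iff]
      cases hw : ρ.toWord with
      | nil => rfl
      | cons y t =>
        exfalso
        have m0 : y ∈ ρ.toWord := by rw [hw]; simp
        have m1 := hρ y m0
        have m2 := I.letters_U D N ν y (by rw [← hρν]; exact m0)
        exact Set.disjoint_left.1 I.disjoint_JM_Jin m1 m2
    have hright : x.right = 1 := by rw [hρg, hρ1, map_one]
    have hlet : ∀ p ∈ x.left.toWord, p.1 ∈ {q : 𝔐.Om | (Semi.tt q : 𝔐.Hs) ∈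
        closure {h | ∃ ν, I.Acc D N ξ ν ∧ h = I.uel D N ν * T ξ * (I.uel D N ν)⁻¹}} := by
      intro p hp
      obtain ⟨u, hu, hpu⟩ := hK.2 p hp
      obtain ⟨u', hu', hpu'⟩ := hP.2 p hp
      obtain ⟨ρ', hρ', rfl⟩ := (I.mem_R_iff _).1 hu
      obtain ⟨ν', rfl⟩ := (I.mem_U_iff D N _).1 hu'
      obtain ⟨α, hα, hpath⟩ := I.orbits_inter ρ' _ hρ' (I.letters_U D N ν') (hpu.symm.trans hpu')
      show (Semi.tt p.1 : 𝔐.Hs) ∈
        closure {h | ∃ ν, I.Acc D N ξ ν ∧ h = I.uel D N ν * T ξ * (I.uel D N ν)⁻¹}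
      rw [hpu', ← Semi.inr_mul_tt]
      exact subset_closure ⟨ν', ⟨α, hpath, hα⟩, rfl⟩
    have hmem := (freeGroup_mem_closure_of_image_iff _ _).2 hlet
    have hle : closure (FreeGroup.of '' {q : 𝔐.Om | (Semi.tt q : 𝔐.Hs) ∈
        closure {h | ∃ ν, I.Acc D N ξ ν ∧ h = I.uel D N ν * T ξ * (I.uel D N ν)⁻¹}}) ≤
        (closure {h | ∃ ν, I.Acc D N ξ ν ∧ h = I.uel D N ν * T ξ * (I.uel D N ν)⁻¹}).comap
          (inl : FreeGroup 𝔐.Om →* 𝔐.Hs) := by
      rw [closure_le]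
      rintro _ ⟨q, hq, rfl⟩
      exact hq
    have hfin := hle hmem
    rw [← inl_left_mul_inr_right x, hright, map_one, mul_one]
    exact hfin
  · rw [closure_le]
    rintro _ ⟨ν, ⟨α, hpath, hα⟩, rfl⟩
    refine ⟨?_, ?_⟩
    · have e : I.uel D N ν * T ξ * (I.uel D N ν)⁻¹ = Semi.tt (Aff.cf α) := by
        unfold uel T
        rw [Semi.inr_mul_tt]
        congr 1
        have e' : (Aff.sig ((I.code D N).blkHom ν) : 𝔐.K0)
            = Aff.sigW ((I.code D N).blkHom ν).toWord := by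
          unfold Aff.sigW
          rw [FreeGroup.mk_toWord]
        rw [e', Aff.path_smul hpath]
      show I.uel D N ν * T ξ * (I.uel D N ν)⁻¹ ∈ I.K
      rw [e]
      refine (Semi.mem_subPt_iff I.R (Aff.cf I.z) _).2
        ⟨I.R.one_mem, subset_closure ⟨_, ?_, rfl⟩⟩
      obtain ⟨w, hw, hwp⟩ := I.exists_path_of_reach hα
      refine ⟨Aff.sigW w, (I.mem_R_iff _).2 ⟨FreeGroup.mk w, ?_, rfl⟩, (Aff.path_smul hwp).symm⟩
      intro y hy
      exact hw y ((FreeGroup.reduce.red (L := w)).sublist.subset hy)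
    · show I.uel D N ν * T ξ * (I.uel D N ν)⁻¹ ∈ I.P D N ξ
      exact mul_mem (mul_mem (I.uel_mem_P D N ξ ν) (I.T_mem_P D N ξ))
        (inv_mem (I.uel_mem_P D N ξ ν))

/-- `K P ≠ Hs`: a translation `inr (x v)`, `v ≠ 0`, is not in `K P` (`right = ρ u ∈ sig (FreeGroup)`, apply `ret`). -/
theorem not_mem_KP (D N : ℕ) (ξ : 𝔐.Vec) (v : 𝔐.Vec) (hv : v ≠ 0) :
    ¬ ∃ k ∈ I.K, ∃ p ∈ I.P D N ξ, (inr (Aff.x v) : 𝔐.Hs) = k * p := by
  rintro ⟨k, hk, p, hp, h⟩
  have hk' := ((Semi.mem_subPt_iff I.R (Aff.cf I.z) k).1 hk).1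
  have hp' := ((Semi.mem_subPt_iff (I.U D N) (Aff.cf ξ) p).1 hp).1
  obtain ⟨ρ, -, hρ⟩ := (I.mem_R_iff _).1 hk'
  obtain ⟨ν, hν⟩ := (I.mem_U_iff D N _).1 hp'
  have h1 : (Aff.x v : 𝔐.K0) = k.right * p.right := by
    have h0 := congrArg SemidirectProduct.right h
    rwa [right_inr, mul_right] at h0
  rw [hρ, hν, ← map_mul] at h1
  have h2 := congrArg Aff.ret h1
  rw [Aff.ret_x, Aff.ret_sig] at h2
  rw [← h2, map_one, ← Aff.x_zero] at h1
  exact hv (Aff.x_injective h1)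

end Inp

end Claimed.Agent.R152.HW
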