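/-
Row 152, module HW, helper22.   THE GUARD  (H4), (H5).
`Bd n h` for `h = (τ,g) ∈ Hs = FreeGroup Om ⋊ K0`: `g` is a word of length `≤ n` in the generators of `K0`, and every letter of
`τ` is a point at word distance `≤ n` from `cf 0`. `Bd` is subadditive and `Bd 1` holds for the generators, so
`Bd W.length (evalH W)`.
(H5) `h ∈ K P`, `Bd n h`  ⇒  `h = k p` with `Bd (2n) p`.
(H4) `p ∈ P`, `Bd n p`  ⇒  `p = ∏ (uel ν_i T ξ (uel ν_i)⁻¹)^{±1} · uel ν` with `(N+1) * nblk ≤ (2 c₀ + 1) n` for all `ν_i`, `ν`.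
-/
import Claimed.Agent.R152.HW.Hs

set_option autoImplicit false

noncomputable section

namespace Claimed.Agent.R152.HW

open Claimed.Agent.R152.H Subgroup Function SemidirectProduct
open scoped Classical

namespace Aff

variable {𝔐 : Aff}

/-- `g` is a word of length `≤ n`. -/
def BdK (n : ℕ) (g : 𝔐.K0) : Prop := ∃ W : List 𝔐.KLet, W.length ≤ n ∧ evalK W = g

/-- `ξ` is at distance `≤ n` from `cf 0`. -/
def BdOm (n : ℕ) (ξ : 𝔐.Om) : Prop := ∃ W : List 𝔐.KLet, W.length ≤ n ∧ (evalK W : 𝔐.K0) • cf 0 = ξ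

/-- The max-norm on `Hs`. -/
def Bd (n : ℕ) (h : 𝔐.Hs) : Prop := BdK n h.right ∧ ∀ y ∈ h.left.toWord, BdOm n y.1

theorem BdK.mul {n n' : ℕ} {g g' : 𝔐.K0} (h : BdK n g) (h' : BdK n' g') : BdK (n + n') (g * g') := by
  obtain ⟨W, hW, rfl⟩ := h
  obtain ⟨W', hW', rfl⟩ := h'
  exact ⟨W ++ W', by rw [List.length_append]; omega, evalK_append W W'⟩

/-- the inverse letter -/
theorem guard_genK_inv (y : 𝔐.KLet) : (genK (y.1, !y.2) : 𝔐.K0) = (genK y)⁻¹ := by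
  rcases y with ⟨i | l, _ | _⟩
  · show (x (Pi.single i 1) : 𝔐.K0) = (x (-Pi.single i 1))⁻¹
    rw [x_neg, inv_inv]
  · show (x (-Pi.single i 1) : 𝔐.K0) = (x (Pi.single i 1))⁻¹
    rw [x_neg]
  · show (lam l : 𝔐.K0) = ((lam l)⁻¹)⁻¹
    rw [inv_inv]
  · rfl

/-- the inverse word -/
theorem guard_evalK_inv (W : List 𝔐.KLet) :
    (evalK ((W.map (fun y => (y.1, !y.2))).reverse) : 𝔐.K0) = (evalK W)⁻¹ := by
  unfold evalK
  rw [List.prod_inv_reverse, List.map_reverse, List.map_map, List.map_map]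
  congr 2
  refine List.map_congr_left fun y _ => ?_
  exact guard_genK_inv y

theorem BdK.inv {n : ℕ} {g : 𝔐.K0} (h : BdK n g) : BdK n g⁻¹ := by
  obtain ⟨W, hW, rfl⟩ := h
  exact ⟨(W.map (fun y => (y.1, !y.2))).reverse, by simpa using hW, guard_evalK_inv W⟩

theorem BdOm.smul {n n' : ℕ} {g : 𝔐.K0} {ξ : 𝔐.Om} (h : BdK n g) (h' : BdOm n' ξ) :
    BdOm (n + n') (g • ξ) := by
  obtain ⟨W, hW, rfl⟩ := h
  obtain ⟨W', hW', rfl⟩ := h'
  exact ⟨W ++ W', by rw [List.length_append]; omega, by rw [evalK_append, mul_smul]⟩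

theorem Bd.mono {n n' : ℕ} (hn : n ≤ n') {h : 𝔐.Hs} (hh : Bd n h) : Bd n' h := by
  obtain ⟨⟨W, hW, hW'⟩, h2⟩ := hh
  refine ⟨⟨W, hW.trans hn, hW'⟩, fun y hy => ?_⟩
  obtain ⟨V, hV, hV'⟩ := h2 y hy
  exact ⟨V, hV.trans hn, hV'⟩

theorem Bd_one : Bd 0 (1 : 𝔐.Hs) := by
  refine ⟨⟨[], le_rfl, rfl⟩, fun y hy => ?_⟩
  rw [one_left, FreeGroup.toWord_one] at hy
  exact absurd hy (List.not_mem_nil)

/-- SUBADDITIVITY (`Semi.mem_toWord_mul_left`). -/
theorem Bd.mul {n n' : ℕ} {h h' : 𝔐.Hs} (hh : Bd n h) (hh' : Bd n' h') : Bd (n + n') (h * h') := by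
  refine ⟨?_, fun y hy => ?_⟩
  · rw [mul_right]
    exact hh.1.mul hh'.1
  · rcases Semi.mem_toWord_mul_left h h' y hy with h1 | ⟨p', hp', rfl⟩
    · obtain ⟨V, hV, hV'⟩ := hh.2 y h1
      exact ⟨V, hV.trans (Nat.le_add_right _ _), hV'⟩
    · exact BdOm.smul hh.1 (hh'.2 p' hp')

/-- Inverses cost a factor 2: `(τ,g)⁻¹ = (g⁻¹ • τ⁻¹, g⁻¹)`. -/
theorem Bd.inv {n : ℕ} {h : 𝔐.Hs} (hh : Bd n h) : Bd (2 * n) h⁻¹ := by
  refine ⟨?_, fun y hy => ?_⟩
  · rw [inv_right]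
    obtain ⟨W, hW, hW'⟩ := hh.1.inv
    exact ⟨W, hW.trans (by omega), hW'⟩
  · rw [inv_left, Semi.toWord_act, List.mem_map] at hy
    obtain ⟨p, hp, rfl⟩ := hy
    rw [FreeGroup.toWord_inv, FreeGroup.invRev, List.mem_reverse, List.mem_map] at hp
    obtain ⟨q, hq, rfl⟩ := hp
    rw [two_mul]
    exact BdOm.smul hh.1.inv (hh.2 q hq)

variable (𝔐)

/-- Letters of the generating set of `Hs`: those of `K0` and the marker `t = T 0`. -/
abbrev HLet : Type := (Fin 𝔐.k ⊕ Fin 𝔐.nL ⊕ Unit) × Bool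

variable {𝔐}

/-- The generators of `Hs`. -/
def genH (y : 𝔐.HLet) : 𝔐.Hs :=
  match y with
  | (Sum.inl i, e) => inr (genK (Sum.inl i, e))
  | (Sum.inr (Sum.inl l), e) => inr (genK (Sum.inr l, e))
  | (Sum.inr (Sum.inr _), true) => Semi.t
  | (Sum.inr (Sum.inr _), false) => Semi.t⁻¹

/-- The value of a word. -/
def evalH (W : List 𝔐.HLet) : 𝔐.Hs := (W.map genH).prod

theorem guard_evalH_append (W W' : List 𝔐.HLet) :
    (evalH (W ++ W') : 𝔐.Hs) = evalH W * evalH W' := by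
  unfold evalH
  rw [List.map_append, List.prod_append]

/-- the inverse letter -/
theorem guard_genH_inv (y : 𝔐.HLet) : (genH (y.1, !y.2) : 𝔐.Hs) = (genH y)⁻¹ := by
  rcases y with ⟨i | l | u, e⟩
  · show (inr (genK (Sum.inl i, !e)) : 𝔐.Hs) = (inr (genK (Sum.inl i, e)))⁻¹
    rw [← map_inv, ← guard_genK_inv]
  · show (inr (genK (Sum.inr l, !e)) : 𝔐.Hs) = (inr (genK (Sum.inr l, e)))⁻¹
    rw [← map_inv, ← guard_genK_inv]
  · cases e
    · show (Semi.t : 𝔐.Hs) = (Semi.t⁻¹)⁻¹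
      rw [inv_inv]
    · rfl

/-- the inverse word -/
theorem guard_evalH_inv (W : List 𝔐.HLet) :
    (evalH ((W.map (fun y => (y.1, !y.2))).reverse) : 𝔐.Hs) = (evalH W)⁻¹ := by
  unfold evalH
  rw [List.prod_inv_reverse, List.map_reverse, List.map_map, List.map_map]
  congr 2
  refine List.map_congr_left fun y _ => ?_
  exact guard_genH_inv y

/-- the letters of `K0` as letters of `Hs` -/
def guardEmb (y : 𝔐.KLet) : 𝔐.HLet :=
  match y with
  | (Sum.inl i, e) => (Sum.inl i, e)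
  | (Sum.inr l, e) => (Sum.inr (Sum.inl l), e)

theorem guard_genH_emb (y : 𝔐.KLet) : (genH (guardEmb y) : 𝔐.Hs) = inr (genK y) := by
  rcases y with ⟨i | l, e⟩ <;> rfl

theorem guard_evalH_emb (W : List 𝔐.KLet) : (evalH (W.map guardEmb) : 𝔐.Hs) = inr (evalK W) := by
  unfold evalH evalK
  rw [map_list_prod, List.map_map, List.map_map]
  congr 1
  refine List.map_congr_left fun y _ => ?_
  exact guard_genH_emb y

theorem evalH_surjective : Surjective (evalH : List 𝔐.HLet → 𝔐.Hs) := by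
  intro h
  have hmem : h ∈ closure (Set.range (inr : 𝔐.K0 → 𝔐.Hs) ∪ {Semi.t}) := by
    rw [Semi.closure_inr_t]
    trivial
  induction hmem using Subgroup.closure_induction with
  | mem y hy =>
    rcases hy with ⟨g, rfl⟩ | hy
    · obtain ⟨W, rfl⟩ := evalK_surjective g
      exact ⟨_, guard_evalH_emb W⟩
    · rw [Set.mem_singleton_iff.mp hy]
      exact ⟨[(Sum.inr (Sum.inr ()), true)], by simp [evalH, genH]⟩
  | one => exact ⟨[], rfl⟩
  | mul a b _ _ ha hb =>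
    obtain ⟨W, rfl⟩ := ha
    obtain ⟨W', rfl⟩ := hb
    exact ⟨W ++ W', guard_evalH_append W W'⟩
  | inv a _ ha =>
    obtain ⟨W, rfl⟩ := ha
    exact ⟨_, guard_evalH_inv W⟩

theorem Bd_genH (y : 𝔐.HLet) : Bd 1 (genH y) := by
  have hK : ∀ z : 𝔐.KLet, Bd 1 (inr (genK z) : 𝔐.Hs) := by
    intro z
    refine ⟨⟨[z], le_rfl, by simp [evalK]⟩, fun p hp => ?_⟩
    rw [left_inr, FreeGroup.toWord_one] at hp
    exact absurd hp (List.not_mem_nil)
  have hq : BdOm 1 (((1 : 𝔐.K0) : 𝔐.K0 ⧸ 𝔐.Chat) : 𝔐.Om) := by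
    refine ⟨[], Nat.zero_le _, ?_⟩
    show (1 : 𝔐.K0) • cf 0 = _
    rw [one_smul, cf, x_zero]
  rcases y with ⟨i | l | u, e⟩
  · exact hK (Sum.inl i, e)
  · exact hK (Sum.inr l, e)
  · cases e
    · show Bd 1 (Semi.t⁻¹ : 𝔐.Hs)
      have e1 : (Semi.t⁻¹ : 𝔐.Hs) = inl (FreeGroup.of ((1 : 𝔐.K0) : 𝔐.K0 ⧸ 𝔐.Chat))⁻¹ := by
        rw [map_inv]
        rfl
      rw [e1]
      refine ⟨⟨[], Nat.zero_le _, rfl⟩, fun p hp => ?_⟩
      rw [left_inl, FreeGroup.toWord_inv, FreeGroup.toWord_of] at hp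
      simp only [FreeGroup.invRev, List.map_cons, List.map_nil, List.reverse_singleton,
        List.mem_singleton] at hp
      rw [hp]
      exact hq
    · show Bd 1 (Semi.t : 𝔐.Hs)
      refine ⟨⟨[], Nat.zero_le _, rfl⟩, fun p hp => ?_⟩
      have e1 : (Semi.t : 𝔐.Hs).left = FreeGroup.of ((1 : 𝔐.K0) : 𝔐.K0 ⧸ 𝔐.Chat) := rfl
      rw [e1, FreeGroup.toWord_of, List.mem_singleton] at hp
      rw [hp]
      exact hq

/-- The max-norm is at most the word length. -/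
theorem Bd_evalH (W : List 𝔐.HLet) : Bd W.length (evalH W) := by
  induction W with
  | nil => exact Bd_one
  | cons y W ih =>
    have e : (evalH (y :: W) : 𝔐.Hs) = genH y * evalH W := by
      unfold evalH
      rw [List.map_cons, List.prod_cons]
    rw [e, List.length_cons, add_comm]
    exact (Bd_genH y).mul ih

end Aff

namespace Inp

variable {𝔐 : Aff} (I : Inp 𝔐)

open Aff

theorem guard_BdK_mono {n n' : ℕ} (hn : n ≤ n') {g : 𝔐.K0} (h : BdK n g) : BdK n' g := by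
  obtain ⟨W, hW, e⟩ := h
  exact ⟨W, hW.trans hn, e⟩

theorem guard_BdOm_mono {n n' : ℕ} (hn : n ≤ n') {q : 𝔐.Om} (h : BdOm n q) : BdOm n' q := by
  obtain ⟨W, hW, e⟩ := h
  exact ⟨W, hW.trans hn, e⟩

/-- `sig φ` is short if `φ` is. -/
theorem BdK_sig (φ : FreeGroup (Fin 𝔐.nL)) : BdK φ.toWord.length (sig φ : 𝔐.K0) := by
  obtain ⟨W, hW, e⟩ := exists_evalK_sigW (𝔐 := 𝔐) φ.toWord
  refine ⟨W, hW.le, ?_⟩
  rw [e, sigW, FreeGroup.mk_toWord]

/-- If `g = sig ρ * sig φ` with `ρ` in the run letters and `φ` in the input letters then both are at most as long as `g`: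
`ret g = ρ φ`, no cancellation (`freeGroup_toWord_mul_of_disjoint`), `length_toWord_ret_le`. -/
theorem length_le_of_BdK {n : ℕ} (ρ φ : FreeGroup (Fin 𝔐.nL)) (hρ : ∀ y ∈ ρ.toWord, y.1 ∈ I.JM)
    (hφ : ∀ y ∈ φ.toWord, y.1 ∈ I.Jin) (h : BdK n (sig ρ * sig φ : 𝔐.K0)) :
    ρ.toWord.length + φ.toWord.length ≤ n := by
  obtain ⟨W, hW, e⟩ := h
  have h1 := length_toWord_ret_le W
  rw [e, map_mul, ret_sig, ret_sig,
    freeGroup_toWord_mul_of_disjoint I.JM I.Jin I.disjoint_JM_Jin ρ φ hρ hφ, List.length_append] at h1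
  exact h1.trans hW

/-- (H5).  `h = (τ,g) = (τ_k, ρ)(τ_p, u) = (τ_k · ρ•τ_p, ρ u)`. By `freeGroup_exists_split` (letters of `τ_k` in `R • cf z`, letters of
`ρ•τ_p` in `ρ U • cf ξ`) we may assume that `τ.toWord = τ_k.toWord ++ (ρ•τ_p).toWord`. Then the letters of `τ_p` are `ρ⁻¹ •` letters of
`τ`: `BdOm (n + n)` by `BdOm.smul`, `BdK_sig`, `length_le_of_BdK`; `BdK n u` likewise. -/
theorem H5 (D N : ℕ) (ξ : 𝔐.Vec) {h : 𝔐.Hs} (hh : ∃ k ∈ I.K, ∃ p ∈ I.P D N ξ, h = k * p) {n : ℕ}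
    (hn : Bd n h) : ∃ k ∈ I.K, ∃ p ∈ I.P D N ξ, h = k * p ∧ Bd (2 * n) p := by
  obtain ⟨k, hk, p, hp, rfl⟩ := hh
  obtain ⟨hkR, hkL⟩ := (Semi.mem_subPt_iff' I.R (cf I.z) k).1 hk
  obtain ⟨hpU, hpL⟩ := (Semi.mem_subPt_iff' (I.U D N) (cf ξ) p).1 hp
  obtain ⟨ρ, hρ, eρ⟩ := (I.mem_R_iff k.right).1 hkR
  obtain ⟨ν, eν⟩ := (I.mem_U_iff D N p.right).1 hpU
  have hφ := I.letters_U D N ν
  have hlen : ρ.toWord.length + ((I.code D N).blkHom ν).toWord.length ≤ n := by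
    apply I.length_le_of_BdK ρ _ hρ hφ
    have := hn.1
    rwa [SemidirectProduct.mul_right, eρ, eν] at this
  obtain ⟨σ₁, σ₂, hσ, hσ₁, hσ₂, hword⟩ := freeGroup_exists_split (Semi.orbPt I.R (cf I.z))
    ((fun q => k.right • q) '' Semi.orbPt (I.U D N) (cf ξ)) k.left
    (Semi.act 𝔐.K0 𝔐.Chat k.right p.left) hkL
    (by
      intro y hy
      rw [Semi.toWord_act, List.mem_map] at hy
      obtain ⟨y', hy', rfl⟩ := hy
      exact ⟨y'.1, hpL y' hy', rfl⟩)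
  refine ⟨⟨σ₁, k.right⟩, ?_, ⟨Semi.act 𝔐.K0 𝔐.Chat k.right⁻¹ σ₂, p.right⟩, ?_, ?_, ?_, ?_⟩
  · exact (Semi.mem_subPt_iff' I.R (cf I.z) _).2 ⟨hkR, hσ₁⟩
  · refine (Semi.mem_subPt_iff' (I.U D N) (cf ξ) _).2 ⟨hpU, ?_⟩
    intro y hy
    change y ∈ (Semi.act 𝔐.K0 𝔐.Chat k.right⁻¹ σ₂).toWord at hy
    rw [Semi.toWord_act, List.mem_map] at hy
    obtain ⟨y', hy', rfl⟩ := hy
    obtain ⟨q, hq, e⟩ := hσ₂ y' hy'
    show k.right⁻¹ • y'.1 ∈ _
    rw [← e]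
    show k.right⁻¹ • k.right • q ∈ _
    rw [inv_smul_smul]
    exact hq
  · apply SemidirectProduct.ext
    · rw [SemidirectProduct.mul_left, SemidirectProduct.mul_left]
      show _ = σ₁ * Semi.act 𝔐.K0 𝔐.Chat k.right (Semi.act 𝔐.K0 𝔐.Chat k.right⁻¹ σ₂)
      rw [← MulAut.mul_apply, ← map_mul, mul_inv_cancel, map_one, MulAut.one_apply, hσ]
    · rfl
  · show BdK (2 * n) p.right
    rw [eν]
    exact guard_BdK_mono (by omega) (BdK_sig _)
  · intro y hy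
    change y ∈ (Semi.act 𝔐.K0 𝔐.Chat k.right⁻¹ σ₂).toWord at hy
    rw [Semi.toWord_act, List.mem_map] at hy
    obtain ⟨y', hy', rfl⟩ := hy
    show BdOm (2 * n) (k.right⁻¹ • y'.1)
    have h1 : BdOm n y'.1 := by
      apply hn.2 y'
      rw [SemidirectProduct.mul_left, hword]
      exact List.mem_append_right _ hy'
    have h2 : BdK ρ.toWord.length k.right⁻¹ := by
      rw [eρ]
      exact (BdK_sig ρ).inv
    exact guard_BdOm_mono (by omega) (BdOm.smul h2 h1)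

/-- THE POINT ESTIMATE. A point `sig (blkHom ν) • cf ξ` at distance `≤ n` from `cf 0` has few blocks.
`φ := blkHom ν`, `φ.toWord = w₁ ++ w₂`, `Path w₂ ξ β`, `Stuck w₁ β` (`exists_stuck_decomp`); `w₁`, `w₂` are reduced (infixes of a reduced
word), `sigW w₁ • cf β` is the point. `stuck_length_le`: `w₁.length ≤ n`. `stuck_growth`: `|β r| + 1 ≤ 2^(2 c₀ n)`. `w₂` is positive
(`pos_of_path`), `two_pow_le_of_path`: `2^(#f w₂) ≤ β r + 1`, hence `#f w₂ ≤ 2 c₀ n`. `nf_blkHom`: `(N+1) nblk ν = #f φ.toWord ≤ w₁.length + #f w₂`. -/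
theorem nblk_le_of_BdOm (D N : ℕ) {ξ : 𝔐.Vec} (hξ : I.Start ξ) (ν : FreeGroup (I.code D N).UL) {n : ℕ}
    (h : BdOm n ((sig ((I.code D N).blkHom ν) : 𝔐.K0) • cf ξ)) :
    (N + 1) * (I.code D N).nblk ν ≤ (2 * 𝔐.c₀ + 1) * n := by
  obtain ⟨W, hW, e⟩ := h
  obtain ⟨w₁, w₂, β, hw, hpath, hstuck⟩ := exists_stuck_decomp ((I.code D N).blkHom ν).toWord ξ
  have hred : FreeGroup.IsReduced (w₁ ++ w₂) := hw ▸ FreeGroup.isReduced_toWord
  have hr₁ : FreeGroup.IsReduced w₁ := hred.infix (List.prefix_append w₁ w₂).isInfix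
  have hr₂ : FreeGroup.IsReduced w₂ := hred.infix (List.suffix_append w₁ w₂).isInfix
  have hpt : (sig ((I.code D N).blkHom ν) : 𝔐.K0) • cf ξ = sigW w₁ • cf β := by
    rw [← path_smul hpath, ← mul_smul, ← sigW_append, ← hw, sigW, FreeGroup.mk_toWord]
  rw [hpt] at e
  have h1 : w₁.length ≤ W.length := stuck_length_le hr₁ hstuck W e
  have h2 := stuck_growth hr₁ hstuck W e I.r
  have hJ : ∀ y ∈ w₂, y.1 ∈ I.Jin := fun y hy =>
    I.letters_U D N ν y (hw ▸ List.mem_append_right _ hy)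
  have hpos := I.pos_of_path hξ hJ hr₂ hpath
  have h3 := I.two_pow_le_of_path hξ hJ hpos hpath
  have h4 : (2 : ℤ) ^ (w₂.filter (fun y => decide (y.1 = I.lf))).length
      ≤ 2 ^ (2 * 𝔐.c₀ * W.length) :=
    h3.trans ((add_le_add_left (le_abs_self _) 1).trans h2)
  have h5 : (w₂.filter (fun y => decide (y.1 = I.lf))).length ≤ 2 * 𝔐.c₀ * W.length := by
    have h4' : (2 : ℕ) ^ (w₂.filter (fun y => decide (y.1 = I.lf))).length
        ≤ 2 ^ (2 * 𝔐.c₀ * W.length) := by exact_mod_cast h4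
    exact (Nat.pow_le_pow_iff_right (by norm_num)).1 h4'
  have h6 := (I.code D N).nf_blkHom ν
  have h7 : (I.code D N).nf ((I.code D N).blkHom ν)
      = (w₁.filter (fun y => decide (y.1 = I.lf))).length
        + (w₂.filter (fun y => decide (y.1 = I.lf))).length := by
    unfold Code.nf
    rw [hw, List.filter_append, List.length_append]
    rfl
  have h8 : (w₁.filter (fun y => decide (y.1 = I.lf))).length ≤ w₁.length := List.length_filter_le _ _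
  have h9 : (I.code D N).N = N + 1 := rfl
  rw [h9] at h6
  rw [← h6, h7]
  have h10 : 2 * 𝔐.c₀ * W.length ≤ 2 * 𝔐.c₀ * n := Nat.mul_le_mul_left _ hW
  calc _ ≤ n + 2 * 𝔐.c₀ * n := by omega
    _ = (2 * 𝔐.c₀ + 1) * n := by ring

/-- The same for the `K0`-component: `(N+1) nblk ν = #f ≤ length ≤ n` (`length_toWord_ret_le`). -/
theorem nblk_le_of_BdK (D N : ℕ) (ν : FreeGroup (I.code D N).UL) {n : ℕ}
    (h : BdK n (sig ((I.code D N).blkHom ν) : 𝔐.K0)) :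
    (N + 1) * (I.code D N).nblk ν ≤ n := by
  obtain ⟨W, hW, e⟩ := h
  have h1 := length_toWord_ret_le W
  rw [e, ret_sig] at h1
  have h6 := (I.code D N).nf_blkHom ν
  have h9 : (I.code D N).N = N + 1 := rfl
  rw [h9] at h6
  rw [← h6]
  unfold Code.nf
  exact (List.length_filter_le _ _).trans (h1.trans hW)

/-- the left component as a product of conjugates of the marker -/
theorem guard_inl_mk (D N : ℕ) {ξ : 𝔐.Vec} (B : ℕ) (w : List (𝔐.Om × Bool))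
    (hw : ∀ y ∈ w, ∃ ν : FreeGroup (I.code D N).UL,
      y.1 = (sig ((I.code D N).blkHom ν) : 𝔐.K0) • cf ξ ∧ (N + 1) * (I.code D N).nblk ν ≤ B) :
    ∃ L : List (FreeGroup (I.code D N).UL × Bool),
      (inl (FreeGroup.mk w) : 𝔐.Hs) = (L.map (fun y => if y.2 then I.uel D N y.1 * T ξ * (I.uel D N y.1)⁻¹
        else I.uel D N y.1 * (T ξ)⁻¹ * (I.uel D N y.1)⁻¹)).prod ∧
      ∀ y ∈ L, (N + 1) * (I.code D N).nblk y.1 ≤ B := by
  induction w with
  | nil =>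
    refine ⟨[], ?_, by simp⟩
    rw [← FreeGroup.one_eq_mk, map_one]
    rfl
  | cons y w ih =>
    obtain ⟨L, hL, hB⟩ := ih (fun y' hy' => hw y' (List.mem_cons_of_mem _ hy'))
    obtain ⟨ν, hν, hνB⟩ := hw y List.mem_cons_self
    refine ⟨(ν, y.2) :: L, ?_, ?_⟩
    · have e : FreeGroup.mk (y :: w) = FreeGroup.mk [y] * FreeGroup.mk w := by
        rw [FreeGroup.mul_mk]; rfl
      rw [e, map_mul, hL, List.map_cons, List.prod_cons]
      congr 1
      have hT : I.uel D N ν * T ξ * (I.uel D N ν)⁻¹ = (inl (FreeGroup.of y.1) : 𝔐.Hs) := by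
        unfold uel T
        rw [Semi.inr_mul_tt, ← hν]
        rfl
      obtain ⟨q, b⟩ := y
      cases b
      · have h1 : FreeGroup.mk [(q, false)] = (FreeGroup.of q)⁻¹ := rfl
        simp only [Bool.false_eq_true, if_false]
        rw [h1, map_inv, ← hT]
        group
      · have h1 : FreeGroup.mk [(q, true)] = FreeGroup.of q := rfl
        simp only [if_true]
        rw [h1, ← hT]
    · intro y' hy'
      rcases List.mem_cons.1 hy' with rfl | hy'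
      · exact hνB
      · exact hB y' hy'

/-- (H4).  `p = (τ,u) ∈ P ξ`: `u = sig (blkHom ν)`, every letter of `τ` is `sig (blkHom ν_i) • cf ξ` (`Semi.mem_subPt_iff'`, `mem_U_iff`),
`τ = ∏ of(letter)^{±1}`, `inl (of (g • cf ξ)) = inr g * T ξ * (inr g)⁻¹` (`Semi.inr_mul_tt`). -/
theorem H4 (D N : ℕ) {ξ : 𝔐.Vec} (hξ : I.Start ξ) {p : 𝔐.Hs} (hp : p ∈ I.P D N ξ) {n : ℕ} (hn : Bd n p) :
    ∃ (L : List (FreeGroup (I.code D N).UL × Bool)) (ν : FreeGroup (I.code D N).UL),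
      p = (L.map (fun y => if y.2 then I.uel D N y.1 * T ξ * (I.uel D N y.1)⁻¹
        else I.uel D N y.1 * (T ξ)⁻¹ * (I.uel D N y.1)⁻¹)).prod * I.uel D N ν ∧
      (∀ y ∈ L, (N + 1) * (I.code D N).nblk y.1 ≤ (2 * 𝔐.c₀ + 1) * n) ∧
      (N + 1) * (I.code D N).nblk ν ≤ (2 * 𝔐.c₀ + 1) * n := by
  obtain ⟨hpU, hpL⟩ := (Semi.mem_subPt_iff' (I.U D N) (cf ξ) p).1 hp
  obtain ⟨ν, eν⟩ := (I.mem_U_iff D N p.right).1 hpU
  obtain ⟨L, hL, hB⟩ := I.guard_inl_mk D N (ξ := ξ) ((2 * 𝔐.c₀ + 1) * n) p.left.toWord (by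
    intro y hy
    obtain ⟨u, hu, e⟩ := hpL y hy
    obtain ⟨ν', rfl⟩ := (I.mem_U_iff D N u).1 hu
    refine ⟨ν', e, I.nblk_le_of_BdOm D N hξ ν' ?_⟩
    rw [← e]
    exact hn.2 y hy)
  refine ⟨L, ν, ?_, hB, ?_⟩
  · rw [← hL, FreeGroup.mk_toWord]
    unfold uel
    rw [← eν, SemidirectProduct.inl_left_mul_inr_right]
  · have h1 := I.nblk_le_of_BdK D N ν (n := n) (eν ▸ hn.1)
    refine h1.trans ?_
    nlinarith [Nat.zero_le (𝔐.c₀ * n)]

end Inp

end Claimed.Agent.R152.HW
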