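/-
Row 152, module HW, helper22.   THE AANDERAA-COHEN FORM OF THE HARDWARE GROUP AND THE ISOMORPHISM `Hac ≃* Hs`.
`Bs = ℤ^k * ⟨t⟩ = FreeGroup (ℤ^k) ⋊ ℤ^k = Semi Q ⊥`, markers `Tb α = x α t x(-α)`.
`Hac` = multiple HNN extension of `Bs`, one stable letter per machine letter `l`:
`Aac l = ⟨Tb (a l), x(mu l u)⟩ → Bac l = ⟨Tb (b l), x(mu' l u)⟩`, so that `t_l Tb α t_l⁻¹ = Tb β` whenever `Step l α β`.
-/
import Claimed.Agent.R152.HW.Hs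

set_option autoImplicit false

noncomputable section

namespace Claimed.Agent.R152.HW

open Claimed.Agent.R152.H Subgroup Function SemidirectProduct
open scoped Classical

namespace Aff

variable (𝔐 : Aff)

/-- The base group `ℤ^k * ⟨t⟩`. -/
abbrev Bs : Type := Semi 𝔐.Q (⊥ : Subgroup 𝔐.Q)

variable {𝔐}

/-- The point of a configuration. -/
def pt (α : 𝔐.Vec) : 𝔐.Q ⧸ (⊥ : Subgroup 𝔐.Q) := ((Multiplicative.ofAdd α : 𝔐.Q) : 𝔐.Q ⧸ (⊥ : Subgroup 𝔐.Q))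

/-- The marker at `α`. -/
def Tb (α : 𝔐.Vec) : 𝔐.Bs := Semi.tt (pt α)

/-- Translations. -/
def xb (v : 𝔐.Vec) : 𝔐.Bs := inr (Multiplicative.ofAdd v)

theorem pt_bijective : Bijective (pt : 𝔐.Vec → 𝔐.Q ⧸ (⊥ : Subgroup 𝔐.Q)) := by
  constructor
  · intro α β h
    have h1 := QuotientGroup.eq.1 h
    rw [Subgroup.mem_bot, inv_mul_eq_one] at h1
    exact Multiplicative.ofAdd.injective h1
  · intro q
    induction q using QuotientGroup.induction_on with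
    | H g => exact ⟨Multiplicative.toAdd g, rfl⟩

theorem xb_add (v w : 𝔐.Vec) : (xb (v + w) : 𝔐.Bs) = xb v * xb w := by
  unfold xb
  rw [ofAdd_add, map_mul]

theorem xb_mul_Tb (v α : 𝔐.Vec) : (xb v : 𝔐.Bs) * Tb α * (xb v)⁻¹ = Tb (v + α) := by
  unfold xb Tb
  rw [Semi.inr_mul_tt]
  rfl

theorem ofAdd_smul_pt (v α : 𝔐.Vec) : (Multiplicative.ofAdd v : 𝔐.Q) • pt α = pt (v + α) := by
  rfl

/-- `Q` acts freely on `Q ⧸ ⊥`. -/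
theorem hac_smul_pt_free (c : 𝔐.Q) (α : 𝔐.Vec) (h : c • pt α = pt α) : c = 1 := by
  obtain ⟨v, rfl⟩ := Multiplicative.ofAdd.surjective c
  rw [ofAdd_smul_pt] at h
  have h1 : v + α = α := pt_bijective.1 h
  have h2 : v = 0 := by simpa using h1
  rw [h2]
  rfl

/-- homomorphisms on a closure are determined by the generators. -/
theorem hac_hom_ext_closure {G M : Type*} [Group G] [Group M] {S : Set G}
    (F F' : closure S →* M)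
    (h : ∀ (y : G) (hy : y ∈ S), F ⟨y, subset_closure hy⟩ = F' ⟨y, subset_closure hy⟩) : F = F' := by
  ext ⟨y, hy⟩
  induction hy using Subgroup.closure_induction with
  | mem y hy => exact h y hy
  | one =>
    have e : (⟨1, (closure S).one_mem⟩ : closure S) = 1 := rfl
    rw [e, map_one, map_one]
  | mul a b ha hb iha ihb =>
    have e : (⟨a * b, (closure S).mul_mem ha hb⟩ : closure S) = ⟨a, ha⟩ * ⟨b, hb⟩ := rfl
    rw [e, map_mul, map_mul, iha, ihb]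
  | inv a ha iha =>
    have e : (⟨a⁻¹, (closure S).inv_mem ha⟩ : closure S) = ⟨a, ha⟩⁻¹ := rfl
    rw [e, map_inv, map_inv, iha]

/-- A homomorphism `U →* U'` induces `⟨U, tt ξ⟩ →* ⟨U', tt ξ'⟩` if `U` acts freely at `ξ`. -/
theorem hac_subPt_hom {H : Type*} [Group H] {C : Subgroup H} (U U' : Subgroup H) (ξ ξ' : H ⧸ C)
    (e : U →* U') (hfree : ∀ c ∈ U, c • ξ = ξ → c = 1) :
    ∃ F : Semi.SubPt U ξ →* Semi.SubPt U' ξ',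
      (∀ (u : H) (hu : u ∈ U) (hu' : (inr u : Semi H C) ∈ Semi.SubPt U ξ),
        (F ⟨inr u, hu'⟩ : Semi H C) = inr (e ⟨u, hu⟩ : H)) ∧
      (∀ ht : (Semi.tt ξ : Semi H C) ∈ Semi.SubPt U ξ, (F ⟨Semi.tt ξ, ht⟩ : Semi H C) = Semi.tt ξ') := by
  obtain ⟨F, hF1, hF2⟩ := Semi.exists_lift_subPt U ξ
    ((inr : H →* Semi H C).comp (U'.subtype.comp e)) (Semi.tt ξ') (by
      intro c hc hcξ
      have h1 : (⟨c, hc⟩ : U) = 1 := Subtype.ext (hfree c hc hcξ)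
      rw [h1, map_one, one_mul, mul_one])
  have hmem0 : ∀ (y : Semi H C) (_ : y ∈ closure ((inr : H → Semi H C) '' U ∪ {Semi.tt ξ}))
      (hy' : y ∈ Semi.SubPt U ξ), F ⟨y, hy'⟩ ∈ Semi.SubPt U' ξ' := by
    intro y hy
    induction hy using Subgroup.closure_induction with
    | mem y hy =>
      intro hy'
      rcases hy with ⟨u, hu, rfl⟩ | rfl
      · rw [hF1 u hu]
        exact Semi.inr_mem_subPt (e ⟨u, hu⟩).2
      · rw [hF2]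
        exact Semi.tt_mem_subPt
    | one =>
      intro hy'
      have e1 : (⟨1, hy'⟩ : Semi.SubPt U ξ) = 1 := rfl
      rw [e1, map_one]
      exact Subgroup.one_mem _
    | mul a b ha hb iha ihb =>
      intro hy'
      have e1 : (⟨a * b, hy'⟩ : Semi.SubPt U ξ) = ⟨a, ha⟩ * ⟨b, hb⟩ := rfl
      rw [e1, map_mul]
      exact Subgroup.mul_mem _ (iha ha) (ihb hb)
    | inv a ha iha =>
      intro hy'
      have e1 : (⟨a⁻¹, hy'⟩ : Semi.SubPt U ξ) = ⟨a, ha⟩⁻¹ := rfl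
      rw [e1, map_inv]
      exact Subgroup.inv_mem _ (iha ha)
  have hmem : ∀ y : Semi.SubPt U ξ, F y ∈ Semi.SubPt U' ξ' := fun y => hmem0 y.1 y.2 y.2
  refine ⟨F.codRestrict _ hmem, ?_, ?_⟩
  · intro u hu hu'
    exact hF1 u hu hu'
  · intro ht
    exact hF2 ht

/-- An isomorphism `U ≃* U'` induces `⟨U, tt ξ⟩ ≃* ⟨U', tt ξ'⟩` if the actions at `ξ`, `ξ'` are free. -/
theorem hac_subPt_equiv {H : Type*} [Group H] {C : Subgroup H} (U U' : Subgroup H) (ξ ξ' : H ⧸ C)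
    (e : U ≃* U') (hfree : ∀ c ∈ U, c • ξ = ξ → c = 1) (hfree' : ∀ c ∈ U', c • ξ' = ξ' → c = 1) :
    ∃ F : Semi.SubPt U ξ ≃* Semi.SubPt U' ξ',
      (∀ (u : H) (hu : u ∈ U) (hu' : (inr u : Semi H C) ∈ Semi.SubPt U ξ),
        (F ⟨inr u, hu'⟩ : Semi H C) = inr (e ⟨u, hu⟩ : H)) ∧
      (∀ ht : (Semi.tt ξ : Semi H C) ∈ Semi.SubPt U ξ, (F ⟨Semi.tt ξ, ht⟩ : Semi H C) = Semi.tt ξ') := by
  obtain ⟨F, hF1, hF2⟩ := hac_subPt_hom U U' ξ ξ' e.toMonoidHom hfree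
  obtain ⟨G, hG1, hG2⟩ := hac_subPt_hom U' U ξ' ξ e.symm.toMonoidHom hfree'
  have h1 : G.comp F = MonoidHom.id _ := by
    apply hac_hom_ext_closure
    rintro y (⟨u, hu, rfl⟩ | rfl)
    · apply Subtype.ext
      have e1 : F ⟨inr u, subset_closure (Or.inl ⟨u, hu, rfl⟩)⟩
          = ⟨inr (e ⟨u, hu⟩ : H), Semi.inr_mem_subPt (e ⟨u, hu⟩).2⟩ := Subtype.ext (hF1 u hu _)
      show (G (F ⟨inr u, _⟩) : Semi H C) = inr u
      rw [e1, hG1 _ (e ⟨u, hu⟩).2]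
      show (inr ((e.symm (e ⟨u, hu⟩) : U) : H) : Semi H C) = inr u
      rw [MulEquiv.symm_apply_apply]
    · apply Subtype.ext
      have e1 : F ⟨Semi.tt ξ, subset_closure (Or.inr rfl)⟩ = ⟨Semi.tt ξ', Semi.tt_mem_subPt⟩ :=
        Subtype.ext (hF2 _)
      show (G (F ⟨Semi.tt ξ, _⟩) : Semi H C) = Semi.tt ξ
      rw [e1, hG2]
  have h2 : F.comp G = MonoidHom.id _ := by
    apply hac_hom_ext_closure
    rintro y (⟨u, hu, rfl⟩ | rfl)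
    · apply Subtype.ext
      have e1 : G ⟨inr u, subset_closure (Or.inl ⟨u, hu, rfl⟩)⟩
          = ⟨inr (e.symm ⟨u, hu⟩ : H), Semi.inr_mem_subPt (e.symm ⟨u, hu⟩).2⟩ :=
        Subtype.ext (hG1 u hu _)
      show (F (G ⟨inr u, _⟩) : Semi H C) = inr u
      rw [e1, hF1 _ (e.symm ⟨u, hu⟩).2]
      show (inr ((e (e.symm ⟨u, hu⟩) : U') : H) : Semi H C) = inr u
      rw [MulEquiv.apply_symm_apply]
    · apply Subtype.ext
      have e1 : G ⟨Semi.tt ξ', subset_closure (Or.inr rfl)⟩ = ⟨Semi.tt ξ, Semi.tt_mem_subPt⟩ :=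
        Subtype.ext (hG2 _)
      show (F (G ⟨Semi.tt ξ', _⟩) : Semi H C) = Semi.tt ξ'
      rw [e1, hF2]
  exact ⟨MonoidHom.toMulEquiv F G h1 h2, hF1, hF2⟩

/-- `⟨U, tt ξ⟩` is finitely generated if `U` is. -/
theorem hac_subPt_fg {H : Type*} [Group H] {C : Subgroup H} (U : Subgroup H) (ξ : H ⧸ C)
    (hU : U.FG) : (Semi.SubPt U ξ).FG := by
  obtain ⟨S, hS, hfin⟩ := (Subgroup.fg_iff _).1 hU
  refine (Subgroup.fg_iff _).2 ⟨(inr : H → Semi H C) '' S ∪ {Semi.tt ξ}, ?_,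
    (hfin.image _).union (Set.finite_singleton _)⟩
  apply le_antisymm
  · refine (closure_le _).2 ?_
    rintro y (⟨u, hu, rfl⟩ | rfl)
    · exact Semi.inr_mem_subPt (hS ▸ subset_closure hu)
    · exact Semi.tt_mem_subPt
  · refine (closure_le _).2 ?_
    rintro y (⟨u, hu, rfl⟩ | rfl)
    · have h1 : (inr u : Semi H C) ∈ (closure S).map (inr : H →* Semi H C) :=
        ⟨u, by rw [hS]; exact hu, rfl⟩
      rw [MonoidHom.map_closure] at h1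
      exact closure_mono Set.subset_union_left h1
    · exact subset_closure (Or.inr rfl)

variable (𝔐)

/-- `⟨Tb (a l), x(mu l u)⟩ = FreeGroup (a l + mu l ℤ^k) ⋊ mu l ℤ^k`. -/
def Aac (l : Fin 𝔐.nL) : Subgroup 𝔐.Bs := Semi.SubPt (𝔐.A l) (pt (𝔐.a l))

/-- `⟨Tb (b l), x(mu' l u)⟩`. -/
def Bac (l : Fin 𝔐.nL) : Subgroup 𝔐.Bs := Semi.SubPt (𝔐.B l) (pt (𝔐.b l))

variable {𝔐}

/-- Membership in `Aac l`: the translation part lies in the lattice, all markers sit at sources of `l`. -/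
theorem mem_Aac_iff (l : Fin 𝔐.nL) (y : 𝔐.Bs) :
    y ∈ 𝔐.Aac l ↔ y.right ∈ 𝔐.A l ∧ ∀ p ∈ y.left.toWord, ∃ α β, p.1 = pt α ∧ 𝔐.Step l α β := by
  unfold Aac
  rw [Semi.mem_subPt_iff']
  refine and_congr_right fun _ => forall₂_congr fun p _ => ?_
  constructor
  · rintro ⟨c, hc, hp⟩
    obtain ⟨v, rfl⟩ := Multiplicative.ofAdd.surjective c
    obtain ⟨u, rfl⟩ := (𝔐.mem_A_iff l v).1 hc
    refine ⟨𝔐.a l + sc (𝔐.mu l) u, 𝔐.b l + sc (𝔐.mu' l) u, ?_, u, rfl, rfl⟩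
    rw [hp, ofAdd_smul_pt, add_comm]
  · rintro ⟨α, β, hp, u, rfl, rfl⟩
    refine ⟨Multiplicative.ofAdd (sc (𝔐.mu l) u), (𝔐.mem_A_iff l _).2 ⟨u, rfl⟩, ?_⟩
    rw [hp, ofAdd_smul_pt, add_comm]

theorem mem_Bac_iff (l : Fin 𝔐.nL) (y : 𝔐.Bs) :
    y ∈ 𝔐.Bac l ↔ y.right ∈ 𝔐.B l ∧ ∀ p ∈ y.left.toWord, ∃ α β, p.1 = pt β ∧ 𝔐.Step l α β := by
  unfold Bac
  rw [Semi.mem_subPt_iff']
  refine and_congr_right fun _ => forall₂_congr fun p _ => ?_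
  constructor
  · rintro ⟨c, hc, hp⟩
    obtain ⟨v, rfl⟩ := Multiplicative.ofAdd.surjective c
    obtain ⟨u, rfl⟩ := (𝔐.mem_B_iff l v).1 hc
    refine ⟨𝔐.a l + sc (𝔐.mu l) u, 𝔐.b l + sc (𝔐.mu' l) u, ?_, u, rfl, rfl⟩
    rw [hp, ofAdd_smul_pt, add_comm]
  · rintro ⟨α, β, hp, u, rfl, rfl⟩
    refine ⟨Multiplicative.ofAdd (sc (𝔐.mu' l) u), (𝔐.mem_B_iff l _).2 ⟨u, rfl⟩, ?_⟩
    rw [hp, ofAdd_smul_pt, add_comm]

theorem Tb_mem_Aac {l : Fin 𝔐.nL} {α β : 𝔐.Vec} (h : 𝔐.Step l α β) : Tb α ∈ 𝔐.Aac l := by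
  obtain ⟨u, rfl, rfl⟩ := h
  rw [add_comm, ← xb_mul_Tb]
  have h1 : (xb (sc (𝔐.mu l) u) : 𝔐.Bs) ∈ 𝔐.Aac l :=
    Semi.inr_mem_subPt ((𝔐.mem_A_iff l _).2 ⟨u, rfl⟩)
  exact Subgroup.mul_mem _ (Subgroup.mul_mem _ h1 Semi.tt_mem_subPt) (Subgroup.inv_mem _ h1)

theorem Tb_mem_Bac {l : Fin 𝔐.nL} {α β : 𝔐.Vec} (h : 𝔐.Step l α β) : Tb β ∈ 𝔐.Bac l := by
  obtain ⟨u, rfl, rfl⟩ := h
  rw [add_comm, ← xb_mul_Tb]
  have h1 : (xb (sc (𝔐.mu' l) u) : 𝔐.Bs) ∈ 𝔐.Bac l :=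
    Semi.inr_mem_subPt ((𝔐.mem_B_iff l _).2 ⟨u, rfl⟩)
  exact Subgroup.mul_mem _ (Subgroup.mul_mem _ h1 Semi.tt_mem_subPt) (Subgroup.inv_mem _ h1)

theorem xb_mem_Aac (l : Fin 𝔐.nL) (u : 𝔐.Vec) : xb (sc (𝔐.mu l) u) ∈ 𝔐.Aac l :=
  Semi.inr_mem_subPt ((𝔐.mem_A_iff l _).2 ⟨u, rfl⟩)

theorem xb_mem_Bac (l : Fin 𝔐.nL) (u : 𝔐.Vec) : xb (sc (𝔐.mu' l) u) ∈ 𝔐.Bac l :=
  Semi.inr_mem_subPt ((𝔐.mem_B_iff l _).2 ⟨u, rfl⟩)

theorem Aac_fg (l : Fin 𝔐.nL) : (𝔐.Aac l).FG :=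
  hac_subPt_fg _ _ (A_fg l)

/-- THE ISOMORPHISM `Aac l ≃* Bac l`.
`Semi.exists_lift_subPt` (the stabilisers are trivial: `Q` acts freely on `Q ⧸ ⊥`) with `f = inr ∘ phi l`, `m = Tb (b l)` gives
`F : Aac l →* Bs` with values in `Bac l` (on generators); in the same way `G : Bac l →* Bs` with `(phi l).symm`. `G ∘ F` and `F ∘ G` are the
identity on the generators. -/
theorem exists_phiac (l : Fin 𝔐.nL) : ∃ e : 𝔐.Aac l ≃* 𝔐.Bac l,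
    (∀ h : Tb (𝔐.a l) ∈ 𝔐.Aac l, (e ⟨Tb (𝔐.a l), h⟩ : 𝔐.Bs) = Tb (𝔐.b l)) ∧
    ∀ (u : 𝔐.Vec) (h : xb (sc (𝔐.mu l) u) ∈ 𝔐.Aac l),
      (e ⟨xb (sc (𝔐.mu l) u), h⟩ : 𝔐.Bs) = xb (sc (𝔐.mu' l) u) := by
  obtain ⟨F, hF1, hF2⟩ := hac_subPt_equiv (𝔐.A l) (𝔐.B l) (pt (𝔐.a l)) (pt (𝔐.b l)) (𝔐.phi l)
    (fun c _ h => hac_smul_pt_free c _ h) (fun c _ h => hac_smul_pt_free c _ h)
  refine ⟨F, fun h => hF2 h, fun u h => ?_⟩
  have hu : Multiplicative.ofAdd (sc (𝔐.mu l) u) ∈ 𝔐.A l := (𝔐.mem_A_iff l _).2 ⟨u, rfl⟩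
  have h1 := hF1 _ hu h
  rw [𝔐.phi_apply l u hu] at h1
  exact h1

variable (𝔐)

/-- The isomorphism of the associated subgroups. -/
def phiac (l : Fin 𝔐.nL) : 𝔐.Aac l ≃* 𝔐.Bac l := (exists_phiac l).choose

/-- The hardware group in the Aanderaa-Cohen form. -/
abbrev Hac : Type := MHNN 𝔐.Bs 𝔐.Aac 𝔐.Bac 𝔐.phiac

variable {𝔐}

theorem phiac_xb (l : Fin 𝔐.nL) (u : 𝔐.Vec) (h : xb (sc (𝔐.mu l) u) ∈ 𝔐.Aac l) :
    (𝔐.phiac l ⟨xb (sc (𝔐.mu l) u), h⟩ : 𝔐.Bs) = xb (sc (𝔐.mu' l) u) :=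
  (exists_phiac l).choose_spec.2 u h

/-- `phiac l` moves the markers as the letter `l` moves configurations
(`Tb (a + mu u) = xb (mu u) Tb a (xb (mu u))⁻¹`). -/
theorem phiac_Tb {l : Fin 𝔐.nL} {α β : 𝔐.Vec} (hs : 𝔐.Step l α β) (h : Tb α ∈ 𝔐.Aac l) :
    (𝔐.phiac l ⟨Tb α, h⟩ : 𝔐.Bs) = Tb β := by
  obtain ⟨u, rfl, rfl⟩ := hs
  have hx : xb (sc (𝔐.mu l) u) ∈ 𝔐.Aac l := xb_mem_Aac l u
  have ha : Tb (𝔐.a l) ∈ 𝔐.Aac l := Semi.tt_mem_subPt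
  have hTa : (𝔐.phiac l ⟨Tb (𝔐.a l), ha⟩ : 𝔐.Bs) = Tb (𝔐.b l) := (exists_phiac l).choose_spec.1 ha
  have e : (⟨Tb (𝔐.a l + sc (𝔐.mu l) u), h⟩ : 𝔐.Aac l) = ⟨_, hx⟩ * ⟨_, ha⟩ * ⟨_, hx⟩⁻¹ := by
    apply Subtype.ext
    show Tb _ = xb _ * Tb _ * (xb _)⁻¹
    rw [xb_mul_Tb, add_comm]
  rw [e, map_mul, map_mul, map_inv]
  show (𝔐.phiac l ⟨_, hx⟩ : 𝔐.Bs) * (𝔐.phiac l ⟨_, ha⟩ : 𝔐.Bs) * (𝔐.phiac l ⟨_, hx⟩ : 𝔐.Bs)⁻¹ = _
  rw [phiac_xb, hTa, xb_mul_Tb, add_comm]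

/-- transport of a chain condition along `Forall₂` -/
theorem hac_isChain_forall₂ {X Y : Type*} {R : X → Y → Prop} {r : X → X → Prop} {s : Y → Y → Prop}
    (h : ∀ a a' b b', R a b → R a' b' → r a a' → s b b') :
    ∀ {L : List X} {L' : List Y}, List.Forall₂ R L L' → L.IsChain r → L'.IsChain s := by
  intro L L' hF
  induction hF with
  | nil => intro _; exact List.isChain_nil
  | cons hab hrest ih =>
    intro hc
    cases hrest with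
    | nil => exact List.isChain_singleton _
    | cons hab' hrest' =>
      rw [List.isChain_cons_cons] at hc ⊢
      exact ⟨h _ _ _ _ hab hab' hc.1, ih hc.2⟩

/-- the relation between the letters of `y` and of `phiac l y` -/
def hacRel (𝔐 : Aff) (l : Fin 𝔐.nL) (p p' : (𝔐.Q ⧸ (⊥ : Subgroup 𝔐.Q)) × Bool) : Prop :=
  p.2 = p'.2 ∧ ∃ α β, p.1 = pt α ∧ p'.1 = pt β ∧ 𝔐.Step l α β

theorem hac_inl_mk_cons (p : (𝔐.Q ⧸ (⊥ : Subgroup 𝔐.Q)) × Bool) (L : List ((𝔐.Q ⧸ (⊥ : Subgroup 𝔐.Q)) × Bool)) :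
    (inl (FreeGroup.mk (p :: L)) : 𝔐.Bs) = inl (FreeGroup.mk [p]) * inl (FreeGroup.mk L) := by
  rw [← map_mul, FreeGroup.mul_mk]
  rfl

theorem hac_inl_mk_single_true (q : 𝔐.Q ⧸ (⊥ : Subgroup 𝔐.Q)) :
    (inl (FreeGroup.mk [(q, true)]) : 𝔐.Bs) = Semi.tt q := rfl

theorem hac_inl_mk_single_false (q : 𝔐.Q ⧸ (⊥ : Subgroup 𝔐.Q)) :
    (inl (FreeGroup.mk [(q, false)]) : 𝔐.Bs) = (Semi.tt q)⁻¹ := by
  unfold Semi.tt
  rw [← map_inv]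
  rfl

/-- `phiac l` on the free part, letter by letter -/
theorem hac_phiac_word (l : Fin 𝔐.nL) : ∀ L : List ((𝔐.Q ⧸ (⊥ : Subgroup 𝔐.Q)) × Bool),
    (∀ p ∈ L, ∃ α β, p.1 = pt α ∧ 𝔐.Step l α β) →
    ∃ L' : List ((𝔐.Q ⧸ (⊥ : Subgroup 𝔐.Q)) × Bool), List.Forall₂ (hacRel 𝔐 l) L L' ∧
      ∃ h : (inl (FreeGroup.mk L) : 𝔐.Bs) ∈ 𝔐.Aac l,
        (𝔐.phiac l ⟨inl (FreeGroup.mk L), h⟩ : 𝔐.Bs) = inl (FreeGroup.mk L') := by
  intro L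
  induction L with
  | nil =>
    intro _
    refine ⟨[], List.Forall₂.nil, ?_⟩
    have h1 : (inl (FreeGroup.mk []) : 𝔐.Bs) = 1 := by
      rw [← FreeGroup.one_eq_mk, map_one]
    refine ⟨h1 ▸ one_mem _, ?_⟩
    have h2 : (⟨inl (FreeGroup.mk []), h1 ▸ one_mem _⟩ : 𝔐.Aac l) = 1 := Subtype.ext h1
    rw [h2, map_one, h1]
    rfl
  | cons p L ih =>
    intro hL
    obtain ⟨L', hF, hm, he⟩ := ih (fun q hq => hL q (List.mem_cons_of_mem _ hq))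
    obtain ⟨α, β, hp, hs⟩ := hL p List.mem_cons_self
    obtain ⟨q, ε⟩ := p
    simp only at hp
    subst hp
    have hT : Tb α ∈ 𝔐.Aac l := Tb_mem_Aac hs
    refine ⟨(pt β, ε) :: L', List.Forall₂.cons ⟨rfl, α, β, rfl, rfl, hs⟩ hF, ?_⟩
    cases ε with
    | true =>
      have e1 : (inl (FreeGroup.mk ((pt α, true) :: L)) : 𝔐.Bs) = Tb α * inl (FreeGroup.mk L) := by
        rw [hac_inl_mk_cons, hac_inl_mk_single_true]
        rfl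
      have hm' : (inl (FreeGroup.mk ((pt α, true) :: L)) : 𝔐.Bs) ∈ 𝔐.Aac l := by
        rw [e1]; exact mul_mem hT hm
      refine ⟨hm', ?_⟩
      have e2 : (⟨_, hm'⟩ : 𝔐.Aac l) = ⟨Tb α, hT⟩ * ⟨_, hm⟩ := Subtype.ext e1
      rw [e2, map_mul]
      show (𝔐.phiac l ⟨Tb α, hT⟩ : 𝔐.Bs) * (𝔐.phiac l ⟨_, hm⟩ : 𝔐.Bs) = _
      rw [phiac_Tb hs, he, hac_inl_mk_cons, hac_inl_mk_single_true]
      rfl
    | false =>
      have e1 : (inl (FreeGroup.mk ((pt α, false) :: L)) : 𝔐.Bs) = (Tb α)⁻¹ * inl (FreeGroup.mk L) := by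
        rw [hac_inl_mk_cons, hac_inl_mk_single_false]
        rfl
      have hm' : (inl (FreeGroup.mk ((pt α, false) :: L)) : 𝔐.Bs) ∈ 𝔐.Aac l := by
        rw [e1]; exact mul_mem (inv_mem hT) hm
      refine ⟨hm', ?_⟩
      have e2 : (⟨_, hm'⟩ : 𝔐.Aac l) = ⟨Tb α, hT⟩⁻¹ * ⟨_, hm⟩ := Subtype.ext e1
      rw [e2, map_mul, map_inv]
      show (𝔐.phiac l ⟨Tb α, hT⟩ : 𝔐.Bs)⁻¹ * (𝔐.phiac l ⟨_, hm⟩ : 𝔐.Bs) = _
      rw [phiac_Tb hs, he, hac_inl_mk_cons, hac_inl_mk_single_false]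
      rfl

/-- the normal form of `phiac l y` -/
theorem hac_phiac_form (l : Fin 𝔐.nL) (y : 𝔐.Aac l) (u : 𝔐.Vec)
    (hu : (y : 𝔐.Bs).right = Multiplicative.ofAdd (sc (𝔐.mu l) u)) :
    ∃ L' : List ((𝔐.Q ⧸ (⊥ : Subgroup 𝔐.Q)) × Bool),
      List.Forall₂ (hacRel 𝔐 l) (y : 𝔐.Bs).left.toWord L' ∧
      (𝔐.phiac l y : 𝔐.Bs) = inl (FreeGroup.mk L') * xb (sc (𝔐.mu' l) u) := by
  obtain ⟨L', hF, hm, he⟩ := hac_phiac_word l (y : 𝔐.Bs).left.toWord ((mem_Aac_iff l _).1 y.2).2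
  refine ⟨L', hF, ?_⟩
  have hx : xb (sc (𝔐.mu l) u) ∈ 𝔐.Aac l := xb_mem_Aac l u
  have e : y = ⟨_, hm⟩ * ⟨_, hx⟩ := by
    apply Subtype.ext
    show (y : 𝔐.Bs) = inl (FreeGroup.mk (y : 𝔐.Bs).left.toWord) * xb (sc (𝔐.mu l) u)
    rw [FreeGroup.mk_toWord]
    unfold xb
    rw [← hu, SemidirectProduct.inl_left_mul_inr_right]
  conv_lhs => rw [e]
  rw [map_mul]
  show (𝔐.phiac l ⟨_, hm⟩ : 𝔐.Bs) * (𝔐.phiac l ⟨_, hx⟩ : 𝔐.Bs) = _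
  rw [he, phiac_xb]

/-- `phiac l` on a general element: letter by letter. -/
theorem phiac_left (l : Fin 𝔐.nL) (y : 𝔐.Aac l) :
    List.Forall₂ (fun p p' : (𝔐.Q ⧸ (⊥ : Subgroup 𝔐.Q)) × Bool =>
        p.2 = p'.2 ∧ ∃ α β, p.1 = pt α ∧ p'.1 = pt β ∧ 𝔐.Step l α β)
      (y : 𝔐.Bs).left.toWord (𝔐.phiac l y : 𝔐.Bs).left.toWord := by
  have hr : (y : 𝔐.Bs).right ∈ 𝔐.A l := ((mem_Aac_iff l _).1 y.2).1
  obtain ⟨u, hu⟩ := (𝔐.mem_A_iff l (Multiplicative.toAdd (y : 𝔐.Bs).right)).1 hr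
  have hu' : (y : 𝔐.Bs).right = Multiplicative.ofAdd (sc (𝔐.mu l) u) := by
    rw [← hu]; rfl
  obtain ⟨L', hF, he⟩ := hac_phiac_form l y u hu'
  have hred : FreeGroup.IsReduced L' := by
    refine hac_isChain_forall₂ ?_ hF (FreeGroup.isReduced_toWord (x := (y : 𝔐.Bs).left))
    rintro a a' b b' ⟨h2, α, β, ha, hb, hs⟩ ⟨h2', α', β', ha', hb', hs'⟩ hr hbb
    rw [← h2, ← h2']
    apply hr
    rw [hb, hb'] at hbb
    have hβ : β = β' := pt_bijective.1 hbb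
    subst hβ
    rw [ha, ha', hs.left_unique hs']
  have hl : (𝔐.phiac l y : 𝔐.Bs).left = FreeGroup.mk L' := by
    rw [he]
    unfold xb
    simp
  rw [hl, FreeGroup.toWord_mk, hred.reduce_eq]
  exact hF

theorem phiac_right (l : Fin 𝔐.nL) (y : 𝔐.Aac l) (u : 𝔐.Vec)
    (hu : (y : 𝔐.Bs).right = Multiplicative.ofAdd (sc (𝔐.mu l) u)) :
    (𝔐.phiac l y : 𝔐.Bs).right = Multiplicative.ofAdd (sc (𝔐.mu' l) u) := by
  obtain ⟨L', _, he⟩ := hac_phiac_form l y u hu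
  rw [he]
  unfold xb
  simp

/-- Conjugation of markers by the stable letters in `Hac`. -/
theorem t_mul_Tb {l : Fin 𝔐.nL} {α β : 𝔐.Vec} (hs : 𝔐.Step l α β) :
    (MHNN.t l : 𝔐.Hac) * MHNN.of (Tb α) = MHNN.of (Tb β) * MHNN.t l := by
  have h := MHNN.t_mul_of (φ := 𝔐.phiac) l ⟨Tb α, Tb_mem_Aac hs⟩
  rw [phiac_Tb hs] at h
  exact h

theorem t_mul_xb (l : Fin 𝔐.nL) (u : 𝔐.Vec) :
    (MHNN.t l : 𝔐.Hac) * MHNN.of (xb (sc (𝔐.mu l) u)) = MHNN.of (xb (sc (𝔐.mu' l) u)) * MHNN.t l := by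
  have h := MHNN.t_mul_of (φ := 𝔐.phiac) l ⟨xb (sc (𝔐.mu l) u), xb_mem_Aac l u⟩
  rw [phiac_xb] at h
  exact h

theorem hac_sc_zero (c : Fin 𝔐.k → ℕ) : sc c (0 : 𝔐.Vec) = 0 := by
  funext i
  simp [sc]

theorem hac_step_ab (l : Fin 𝔐.nL) : 𝔐.Step l (𝔐.a l) (𝔐.b l) :=
  ⟨0, by rw [hac_sc_zero, add_zero], by rw [hac_sc_zero, add_zero]⟩

theorem hac_Tb_eq (α : 𝔐.Vec) : (Tb α : 𝔐.Bs) = xb α * Semi.t * (xb α)⁻¹ := Semi.tt_mk _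

theorem hac_T_eq (α : 𝔐.Vec) : (Inp.T α : 𝔐.Hs) = inr (x α) * Semi.t * (inr (x α))⁻¹ := Semi.tt_mk _

theorem hac_t_eq_Tb : (Semi.t : 𝔐.Bs) = Tb 0 := rfl

theorem hac_xb_mul_Tb' (v α : 𝔐.Vec) : (xb v : 𝔐.Bs) * Tb α = Tb (v + α) * xb v := by
  rw [← xb_mul_Tb, inv_mul_cancel_right]

/-- `Bs →* Hs` -/
theorem hac_exists_Psi0 : ∃ Ψ₀ : 𝔐.Bs →* 𝔐.Hs, (∀ v : 𝔐.Vec, Ψ₀ (xb v) = inr (x v)) ∧ Ψ₀ Semi.t = Semi.t ∧
    ∀ α : 𝔐.Vec, Ψ₀ (Tb α) = Inp.T α := by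
  obtain ⟨F, h1, h2⟩ := Semi.exists_lift (H := 𝔐.Q) (C := (⊥ : Subgroup 𝔐.Q))
    ((inr : 𝔐.K0 →* 𝔐.Hs).comp (MHNN.of : 𝔐.Q →* 𝔐.K0)) (Semi.t : 𝔐.Hs) (by
      intro c hc
      rw [Subgroup.mem_bot] at hc
      subst hc
      simp)
  have h3 : ∀ v : 𝔐.Vec, F (xb v) = inr (x v) := fun v => h1 _
  refine ⟨F, h3, h2, ?_⟩
  intro α
  rw [hac_Tb_eq, hac_T_eq, map_mul, map_mul, map_inv, h3, h2]

/-- `Hac →* Hs` -/
theorem hac_exists_Psi : ∃ Ψ : 𝔐.Hac →* 𝔐.Hs, (∀ v : 𝔐.Vec, Ψ (MHNN.of (xb v)) = inr (x v)) ∧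
    Ψ (MHNN.of Semi.t) = Semi.t ∧ ∀ l : Fin 𝔐.nL, Ψ (MHNN.t l) = inr (lam l) := by
  obtain ⟨Ψ₀, h1, h2, h3⟩ := hac_exists_Psi0 (𝔐 := 𝔐)
  have hx : ∀ (l : Fin 𝔐.nL) (a : 𝔐.Aac l),
      (inr (lam l) : 𝔐.Hs) * Ψ₀ a = Ψ₀ (𝔐.phiac l a : 𝔐.Bs) * inr (lam l) := by
    refine MHNN.lift_hyp_of_closure Ψ₀ (fun l => (inr (lam l) : 𝔐.Hs))
      (fun l => (inr : 𝔐.Q → 𝔐.Bs) '' (𝔐.A l) ∪ {Semi.tt (pt (𝔐.a l))}) (fun l => rfl) ?_
    rintro l ⟨a, ha⟩ hS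
    rcases hS with ⟨g, hg, rfl⟩ | hS
    · obtain ⟨u, hu⟩ := (𝔐.mem_A_iff l (Multiplicative.toAdd g)).1 hg
      have hg' : (inr g : 𝔐.Bs) = xb (sc (𝔐.mu l) u) := by
        unfold xb
        rw [← hu]
        rfl
      have e : (⟨inr g, ha⟩ : 𝔐.Aac l) = ⟨xb (sc (𝔐.mu l) u), xb_mem_Aac l u⟩ := Subtype.ext hg'
      rw [e, phiac_xb]
      show (inr (lam l) : 𝔐.Hs) * Ψ₀ (xb (sc (𝔐.mu l) u)) = _
      rw [h1, h1, ← map_mul, ← map_mul, lam_mul_x]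
    · have hS' : a = Tb (𝔐.a l) := hS
      subst hS'
      rw [phiac_Tb (hac_step_ab l)]
      show (inr (lam l) : 𝔐.Hs) * Ψ₀ (Tb (𝔐.a l)) = _
      rw [h3, h3]
      have h4 := Semi.inr_mul_tt (C := 𝔐.Chat) (lam l) (cf (𝔐.a l))
      rw [lam_smul_cf (hac_step_ab l)] at h4
      exact mul_inv_eq_iff_eq_mul.mp h4
  refine ⟨MHNN.lift Ψ₀ (fun l => (inr (lam l) : 𝔐.Hs)) hx, ?_, ?_, ?_⟩
  · intro v
    rw [MHNN.lift_of, h1]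
  · rw [MHNN.lift_of, h2]
  · intro l
    rw [MHNN.lift_t]

/-- `Hs →* Hac` -/
theorem hac_exists_Psi' : ∃ Ψ' : 𝔐.Hs →* 𝔐.Hac, (∀ v : 𝔐.Vec, Ψ' (inr (x v)) = MHNN.of (xb v)) ∧
    Ψ' Semi.t = MHNN.of Semi.t ∧ ∀ l : Fin 𝔐.nL, Ψ' (inr (lam l)) = MHNN.t l := by
  obtain ⟨F₀, f1, f2⟩ := K0_exists_lift (𝔐 := 𝔐) (M := 𝔐.Hac) (fun v => MHNN.of (xb v))
    (fun v w => by rw [xb_add, map_mul]) (fun l => MHNN.t l) (fun l u => t_mul_xb l u)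
  have hchat : ∀ l : Fin 𝔐.nL, F₀ (chat l) * MHNN.of (Semi.t : 𝔐.Bs) = MHNN.of (Semi.t : 𝔐.Bs) * F₀ (chat l) := by
    intro l
    unfold chat
    rw [map_mul, map_mul, f1, f1, f2, hac_t_eq_Tb]
    calc (MHNN.of (xb (-𝔐.b l)) * MHNN.t l * MHNN.of (xb (𝔐.a l)) * MHNN.of (Tb 0) : 𝔐.Hac)
        = MHNN.of (xb (-𝔐.b l)) * MHNN.t l * MHNN.of (xb (𝔐.a l) * Tb 0) := by
          rw [map_mul, mul_assoc]
      _ = MHNN.of (xb (-𝔐.b l)) * (MHNN.t l * MHNN.of (Tb (𝔐.a l))) * MHNN.of (xb (𝔐.a l)) := by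
          rw [hac_xb_mul_Tb', add_zero, map_mul]
          simp only [mul_assoc]
      _ = MHNN.of (xb (-𝔐.b l) * Tb (𝔐.b l)) * MHNN.t l * MHNN.of (xb (𝔐.a l)) := by
          rw [t_mul_Tb (hac_step_ab l), map_mul]
          simp only [mul_assoc]
      _ = MHNN.of (Tb 0) * (MHNN.of (xb (-𝔐.b l)) * MHNN.t l * MHNN.of (xb (𝔐.a l))) := by
          rw [hac_xb_mul_Tb', neg_add_cancel, map_mul]
          simp only [mul_assoc]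
  have hm : ∀ c ∈ 𝔐.Chat, F₀ c * MHNN.of (Semi.t : 𝔐.Bs) = MHNN.of (Semi.t : 𝔐.Bs) * F₀ c := by
    intro c hc
    induction hc using Subgroup.closure_induction with
    | mem c hc =>
      obtain ⟨l, rfl⟩ := hc
      exact hchat l
    | one => simp
    | mul a b _ _ iha ihb =>
      rw [map_mul, mul_assoc, ihb, ← mul_assoc, iha, mul_assoc]
    | inv a _ iha =>
      rw [map_inv]
      exact ((show Commute (F₀ a) (MHNN.of (Semi.t : 𝔐.Bs)) from iha).inv_left).eq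
  obtain ⟨F, g1, g2⟩ := Semi.exists_lift (H := 𝔐.K0) (C := 𝔐.Chat) F₀ (MHNN.of (Semi.t : 𝔐.Bs)) hm
  refine ⟨F, ?_, g2, ?_⟩
  · intro v
    rw [g1, f1]
  · intro l
    rw [g1, f2]

/-- THE ISOMORPHISM `Hac ≃* Hs`, by universal properties only.
`Ψ`: `Semi.exists_lift` gives `Bs →* Hs`, `xb v ↦ inr (x v)`, `t ↦ t` (`C = ⊥`: nothing to check); `MHNN.lift` with `t_l ↦ inr (lam l)`:
the relation has to be checked on the generators `Tb (a l)`, `xb (mu l u)` of `Aac l` only (`MHNN.lift_hyp_of_closure`):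
`inr (lam l) T(a l) = T(b l) inr (lam l)` (`Semi.inr_mul_tt`, `lam_smul_cf`), `lam_mul_x`.
`Ψ'`: `K0_exists_lift` gives `K0 →* Hac`, `x v ↦ of (xb v)`, `lam l ↦ t_l` (`t_mul_xb`); `Semi.exists_lift` with `t ↦ of t`: `of t` commutes with the image of
`chat l = x(-b) lam x(a)` by `t_mul_Tb` for `Step l (a l) (b l)`, hence with the image of `Chat` (closure induction).
`Ψ' ∘ Ψ = id`, `Ψ ∘ Ψ' = id` on generators (`MHNN.hom_ext`, `Semi.hom_ext'`, `K0_hom_ext`). -/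
theorem exists_iso : ∃ Ψ : 𝔐.Hac ≃* 𝔐.Hs,
    (∀ v : 𝔐.Vec, Ψ (MHNN.of (xb v)) = inr (x v)) ∧ Ψ (MHNN.of Semi.t) = Semi.t ∧
    ∀ l : Fin 𝔐.nL, Ψ (MHNN.t l) = inr (lam l) := by
  obtain ⟨Ψ, a1, a2, a3⟩ := hac_exists_Psi (𝔐 := 𝔐)
  obtain ⟨Ψ', b1, b2, b3⟩ := hac_exists_Psi' (𝔐 := 𝔐)
  have h1 : Ψ'.comp Ψ = MonoidHom.id 𝔐.Hac := by
    apply MHNN.hom_ext
    · apply Semi.hom_ext'
      · intro q
        show Ψ' (Ψ (MHNN.of (xb (Multiplicative.toAdd q)))) = MHNN.of (xb (Multiplicative.toAdd q))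
        rw [a1, b1]
      · show Ψ' (Ψ (MHNN.of Semi.t)) = MHNN.of Semi.t
        rw [a2, b2]
    · intro l
      show Ψ' (Ψ (MHNN.t l)) = MHNN.t l
      rw [a3, b3]
  have h2 : Ψ.comp Ψ' = MonoidHom.id 𝔐.Hs := by
    apply Semi.hom_ext'
    · have h3 : (Ψ.comp Ψ').comp (inr : 𝔐.K0 →* 𝔐.Hs) = (inr : 𝔐.K0 →* 𝔐.Hs) := by
        apply K0_hom_ext
        · intro v
          show Ψ (Ψ' (inr (x v))) = inr (x v)
          rw [b1, a1]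
        · intro l
          show Ψ (Ψ' (inr (lam l))) = inr (lam l)
          rw [b3, a3]
      intro h
      exact DFunLike.congr_fun h3 h
    · show Ψ (Ψ' Semi.t) = Semi.t
      rw [b2, a2]
  exact ⟨MonoidHom.toMulEquiv Ψ Ψ' h1 h2, a1, a2, a3⟩

variable (𝔐)

/-- The isomorphism. -/
def iso : 𝔐.Hac ≃* 𝔐.Hs := exists_iso.choose

variable {𝔐}

theorem iso_xb (v : 𝔐.Vec) : 𝔐.iso (MHNN.of (xb v)) = inr (x v) := exists_iso.choose_spec.1 v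

theorem iso_t : 𝔐.iso (MHNN.of Semi.t) = Semi.t := exists_iso.choose_spec.2.1

theorem iso_lam (l : Fin 𝔐.nL) : 𝔐.iso (MHNN.t l) = inr (lam l) := exists_iso.choose_spec.2.2 l

theorem iso_Tb (α : 𝔐.Vec) : 𝔐.iso (MHNN.of (Tb α)) = Inp.T α := by
  rw [hac_Tb_eq, hac_T_eq, map_mul, map_mul, map_inv, map_mul, map_mul, map_inv, iso_xb, iso_t]

theorem Hac_isFinitelyPresented : Group.IsFinitelyPresented 𝔐.Hac := by
  have : Group.IsFinitelyPresented 𝔐.Q := Q_isFinitelyPresented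
  have : Group.IsFinitelyPresented 𝔐.Bs :=
    Semi.isFinitelyPresented (H := 𝔐.Q) (C := (⊥ : Subgroup 𝔐.Q)) Subgroup.FG.bot
  exact MHNN.isFinitelyPresented (fun l => Aac_fg l)

end Aff

namespace Inp

variable {𝔐 : Aff} (I : Inp 𝔐)

open Aff

/-- Membership in the group generated by the markers at the configurations of `X`. -/
theorem hac_mem_closure_Tb_iff (X : Set 𝔐.Vec) (y : 𝔐.Bs) :
    y ∈ closure (Tb '' X) ↔ y.right = 1 ∧ ∀ p ∈ y.left.toWord, ∃ α ∈ X, p.1 = pt α := by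
  have h : closure ((Tb : 𝔐.Vec → 𝔐.Bs) '' X) = (closure (FreeGroup.of '' (pt '' X))).map
      (inl : FreeGroup (𝔐.Q ⧸ (⊥ : Subgroup 𝔐.Q)) →* 𝔐.Bs) := by
    rw [MonoidHom.map_closure, ← Set.image_comp, ← Set.image_comp]
    rfl
  rw [h, Subgroup.mem_map]
  constructor
  · rintro ⟨τ, hτ, rfl⟩
    refine ⟨right_inl τ, ?_⟩
    rw [left_inl]
    intro p hp
    obtain ⟨α, hα, hp'⟩ := (freeGroup_mem_closure_of_image_iff _ _).1 hτ p hp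
    exact ⟨α, hα, hp'.symm⟩
  · rintro ⟨h1, h2⟩
    refine ⟨y.left, (freeGroup_mem_closure_of_image_iff _ _).2 ?_, ?_⟩
    · intro p hp
      obtain ⟨α, hα, hp'⟩ := h2 p hp
      exact ⟨α, hα, hp'.symm⟩
    · conv_rhs => rw [← inl_left_mul_inr_right y, h1, map_one, mul_one]

/-- Transport of the condition on the letters along `phiac_left`. -/
theorem hac_forall₂_iff (X : Set 𝔐.Vec) (l : Fin 𝔐.nL)
    (hX : ∀ α β, 𝔐.Step l α β → (α ∈ X ↔ β ∈ X))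
    {L L' : List ((𝔐.Q ⧸ (⊥ : Subgroup 𝔐.Q)) × Bool)}
    (hF : List.Forall₂ (fun p p' : (𝔐.Q ⧸ (⊥ : Subgroup 𝔐.Q)) × Bool =>
        p.2 = p'.2 ∧ ∃ α β, p.1 = pt α ∧ p'.1 = pt β ∧ 𝔐.Step l α β) L L') :
    (∀ p ∈ L, ∃ α ∈ X, p.1 = pt α) ↔ ∀ p ∈ L', ∃ α ∈ X, p.1 = pt α := by
  induction hF with
  | nil => simp
  | cons hab _ ih =>
    obtain ⟨-, α, β, ha, hb, hs⟩ := hab
    rw [List.forall_mem_cons, List.forall_mem_cons, ih]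
    refine and_congr_left fun _ => ?_
    constructor
    · rintro ⟨α', hα', e⟩
      have e1 : α = α' := pt_bijective.1 (ha.symm.trans e)
      subst e1
      exact ⟨β, (hX _ _ hs).1 hα', hb⟩
    · rintro ⟨β', hβ', e⟩
      have e1 : β = β' := pt_bijective.1 (hb.symm.trans e)
      subst e1
      exact ⟨α, (hX _ _ hs).2 hβ', ha⟩

/-- A set of configurations which is saturated for the letters of `J` gives a compatible subgroup. -/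
theorem hac_compat (X : Set 𝔐.Vec) (J : Set (Fin 𝔐.nL))
    (hX : ∀ l ∈ J, ∀ α β, 𝔐.Step l α β → (α ∈ X ↔ β ∈ X)) :
    MHNN.Compat 𝔐.phiac (closure (Tb '' X)) J := by
  intro l hl y
  rw [hac_mem_closure_Tb_iff, hac_mem_closure_Tb_iff, hac_forall₂_iff X l (hX l hl) (phiac_left l y)]
  refine and_congr_left fun _ => ?_
  have hr : (y : 𝔐.Bs).right ∈ 𝔐.A l := ((mem_Aac_iff l _).1 y.2).1
  obtain ⟨u, hu⟩ := (𝔐.mem_A_iff l (Multiplicative.toAdd (y : 𝔐.Bs).right)).1 hr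
  have hu' : (y : 𝔐.Bs).right = Multiplicative.ofAdd (sc (𝔐.mu l) u) := by
    rw [← hu]; rfl
  rw [phiac_right l y u hu', hu']
  have hk := 𝔐.ker_scHom_eq l
  have h1 : Multiplicative.ofAdd u ∈ (scHom (𝔐.mu l)).ker ↔
      Multiplicative.ofAdd u ∈ (scHom (𝔐.mu' l)).ker := by rw [hk]
  exact h1

/-- The group generated by the letters of `J`. -/
theorem hac_mem_closure_lam_iff (J : Set (Fin 𝔐.nL)) (g : 𝔐.K0) :
    g ∈ closure (lam '' J) ↔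
      ∃ φ : FreeGroup (Fin 𝔐.nL), (∀ y ∈ φ.toWord, y.1 ∈ J) ∧ g = sig φ := by
  have h : closure ((lam : Fin 𝔐.nL → 𝔐.K0) '' J)
      = (closure (FreeGroup.of '' J)).map (sig : FreeGroup (Fin 𝔐.nL) →* 𝔐.K0) := by
    rw [MonoidHom.map_closure, ← Set.image_comp]
    refine congrArg Subgroup.closure (Set.image_congr ?_)
    intro l _
    show lam l = sig (FreeGroup.of l)
    rw [sig, FreeGroup.lift_apply_of]
  rw [h, Subgroup.mem_map]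
  constructor
  · rintro ⟨φ, hφ, rfl⟩
    exact ⟨φ, (freeGroup_mem_closure_of_image_iff _ _).1 hφ, rfl⟩
  · rintro ⟨φ, hφ, rfl⟩
    exact ⟨φ, (freeGroup_mem_closure_of_image_iff _ _).2 hφ, rfl⟩

theorem hac_sigW_mem (J : Set (Fin 𝔐.nL)) (w : List 𝔐.SL) (hw : ∀ y ∈ w, y.1 ∈ J) :
    (sigW w : 𝔐.K0) ∈ closure (lam '' J) := by
  refine (hac_mem_closure_lam_iff J _).2 ⟨FreeGroup.mk w, ?_, rfl⟩
  intro y hy
  exact hw y ((FreeGroup.reduce.red (L := w)).sublist.subset hy)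

/-- `iso` maps `⟨markers at X, letters of J⟩` onto `⟨T ζ, letters of J⟩` if `X` is a part of the `J`-component of `ζ ∈ X`. -/
theorem hac_map_iso_sub (X : Set 𝔐.Vec) (J : Set (Fin 𝔐.nL)) (ζ : 𝔐.Vec) (hζ : ζ ∈ X)
    (hX : ∀ α ∈ X, ∃ w : List 𝔐.SL, (∀ y ∈ w, y.1 ∈ J) ∧ 𝔐.Path w ζ α) :
    (MHNN.Sub 𝔐.phiac (closure (Tb '' X)) J).map (𝔐.iso : 𝔐.Hac →* 𝔐.Hs)
      = Semi.SubPt (closure (lam '' J)) (cf ζ) := by
  apply le_antisymm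
  · rw [Subgroup.map_le_iff_le_comap]
    unfold MHNN.Sub
    rw [closure_le]
    rintro _ (⟨s, hs, rfl⟩ | ⟨l, hl, rfl⟩)
    · have hle : closure ((Tb : 𝔐.Vec → 𝔐.Bs) '' X) ≤
          (Semi.SubPt (closure (lam '' J)) (cf ζ)).comap
            ((𝔐.iso : 𝔐.Hac →* 𝔐.Hs).comp (MHNN.of : 𝔐.Bs →* 𝔐.Hac)) := by
        rw [closure_le]
        rintro _ ⟨α, hα, rfl⟩
        show 𝔐.iso (MHNN.of (Tb α)) ∈ Semi.SubPt (closure (lam '' J)) (cf ζ)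
        rw [iso_Tb]
        obtain ⟨w, hw, hp⟩ := hX α hα
        refine (Semi.mem_subPt_iff _ _ _).2 ⟨Subgroup.one_mem _, subset_closure ⟨_, ?_, rfl⟩⟩
        exact ⟨sigW w, hac_sigW_mem J w hw, (path_smul hp).symm⟩
      exact hle hs
    · show 𝔐.iso (MHNN.t l) ∈ Semi.SubPt (closure (lam '' J)) (cf ζ)
      rw [iso_lam]
      exact Semi.inr_mem_subPt (subset_closure ⟨l, hl, rfl⟩)
  · rw [subPt_closure_eq, closure_le]
    rintro _ (⟨_, ⟨l, hl, rfl⟩, rfl⟩ | rfl)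
    · exact ⟨MHNN.t l, subset_closure (Or.inr ⟨l, hl, rfl⟩), iso_lam l⟩
    · exact ⟨MHNN.of (Tb ζ), MHNN.of_mem_sub J (subset_closure ⟨ζ, hζ, rfl⟩), iso_Tb ζ⟩

/-- Markers at the configurations which run into `z`. -/
def SReach : Subgroup 𝔐.Bs := closure (Tb '' {α | I.Reach α})

/-- `F(Reach)` is compatible with the run letters: `c ∈ Reach ↔ l(c) ∈ Reach` (determinism, `z` terminal); use `phiac_left`, `phiac_right` and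
`freeGroup_mem_closure_of_image_iff`. -/
theorem compat_SReach : MHNN.Compat 𝔐.phiac I.SReach I.JM := by
  refine hac_compat {α | I.Reach α} I.JM ?_
  intro l hl α β hs
  constructor
  · intro hα
    rcases Relation.ReflTransGen.cases_head (show I.Reach α from hα) with rfl | ⟨γ, ⟨l', hl', hs'⟩, hrest⟩
    · exact absurd hs (I.term l hl β)
    · have e1 : l = l' := I.det l hl l' hl' α β γ hs hs'
      subst e1
      have e2 : β = γ := hs.right_unique hs'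
      rw [e2]
      exact hrest
  · intro hβ
    exact Relation.ReflTransGen.head ⟨l, hl, hs⟩ hβ

/-- `K` in the Aanderaa-Cohen form. -/
def Kac : Subgroup 𝔐.Hac := MHNN.Sub 𝔐.phiac I.SReach I.JM

/-- `iso` maps `Kac` onto `K`. (`⊆`: `iso (of (Tb α)) = T α = tt (cf α)`, `cf α ∈ R • cf z` for `Reach α`; `⊇`: generators.) -/
theorem map_iso_Kac : I.Kac.map (𝔐.iso : 𝔐.Hac →* 𝔐.Hs) = I.K :=
  hac_map_iso_sub {α | I.Reach α} I.JM I.z Relation.ReflTransGen.refl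
    (fun _ hα => I.exists_path_of_reach hα)

/-- Configurations reached from `ξ` by positive input words. -/
def InC (ξ : 𝔐.Vec) : Set 𝔐.Vec :=
  {α | ∃ w : List 𝔐.SL, (∀ y ∈ w, y.1 ∈ I.Jin ∧ y.2 = true) ∧ 𝔐.Path w ξ α}

/-- Markers at these configurations. -/
def SIn (ξ : 𝔐.Vec) : Subgroup 𝔐.Bs := closure (Tb '' I.InC ξ)

/-- `F(InC ξ)` is compatible with the input letters: `c ∈ InC ↔ l(c) ∈ InC` (`←`: the images of the input letters are disjoint and `ξ` is in no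
image, so the last letter of a positive path to `l(c)` is `l`). -/
theorem compat_SIn {ξ : 𝔐.Vec} (hξ : I.Start ξ) : MHNN.Compat 𝔐.phiac (I.SIn ξ) I.Jin := by
  refine hac_compat (I.InC ξ) I.Jin ?_
  intro l hl α β hs
  constructor
  · rintro ⟨w, hw, hp⟩
    refine ⟨(l, true) :: w, ?_, α, hp, hs⟩
    intro y hy
    rcases List.mem_cons.1 hy with rfl | hy
    · exact ⟨hl, rfl⟩
    · exact hw y hy
  · rintro ⟨w, hw, hp⟩
    cases w with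
    | nil =>
      exfalso
      have e : ξ = β := hp
      rw [← e] at hs
      exact hξ.1 l hl α hs
    | cons y w' =>
      obtain ⟨γ, h1, h2⟩ := hp
      obtain ⟨l', e'⟩ := y
      obtain ⟨hl', he⟩ := hw (l', e') List.mem_cons_self
      simp only at hl' he
      subst he
      have hs' : 𝔐.Step l' γ β := h2
      have e1 : l = l' := I.img l hl l' hl' α γ β hs hs'
      subst e1
      have e2 : α = γ := hs.left_unique hs'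
      rw [e2]
      exact ⟨w', fun y hy => hw y (List.mem_cons_of_mem _ hy), h1⟩

/-- `P' = ⟨T ξ, all input letters⟩` in the Aanderaa-Cohen form. -/
def P'ac (ξ : 𝔐.Vec) : Subgroup 𝔐.Hac := MHNN.Sub 𝔐.phiac (I.SIn ξ) I.Jin

/-- `P' = ⟨T ξ, all input letters⟩` in `Hs`. -/
def P' (ξ : 𝔐.Vec) : Subgroup 𝔐.Hs := Semi.SubPt (closure (lam '' I.Jin)) (cf ξ)

theorem map_iso_P'ac (ξ : 𝔐.Vec) : (I.P'ac ξ).map (𝔐.iso : 𝔐.Hac →* 𝔐.Hs) = I.P' ξ :=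
  hac_map_iso_sub (I.InC ξ) I.Jin ξ ⟨[], by simp, rfl⟩
    (fun _ ⟨w, hw, hp⟩ => ⟨w, fun y hy => (hw y hy).1, hp⟩)

theorem P_le_P' (D N : ℕ) (ξ : 𝔐.Vec) : I.P D N ξ ≤ I.P' ξ := by
  have hU : I.U D N ≤ closure (lam '' I.Jin) := by
    intro g hg
    obtain ⟨ν, rfl⟩ := (I.mem_U_iff D N g).1 hg
    exact (hac_mem_closure_lam_iff I.Jin _).2 ⟨_, I.letters_U D N ν, rfl⟩
  unfold P P' Semi.SubPt
  apply Subgroup.closure_mono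
  apply Set.union_subset_union_left
  exact Set.image_mono hU

/-- `P'` is free on the marker and the input letters. -/
theorem exists_lift_P' {ξ : 𝔐.Vec} (hξ : I.Start ξ) {M : Type*} [Group M] (m : M) (f₀ : Fin 𝔐.nL → M) :
    ∃ π : I.P' ξ →* M, (∀ h : T ξ ∈ I.P' ξ, π ⟨T ξ, h⟩ = m) ∧
      ∀ l ∈ I.Jin, ∀ h : (inr (lam l) : 𝔐.Hs) ∈ I.P' ξ, π ⟨inr (lam l), h⟩ = f₀ l := by
  let f : (closure ((lam : Fin 𝔐.nL → 𝔐.K0) '' I.Jin) : Subgroup 𝔐.K0) →* M :=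
    (FreeGroup.lift f₀).comp ((ret : 𝔐.K0 →* FreeGroup (Fin 𝔐.nL)).comp (Subgroup.subtype _))
  obtain ⟨F, hF1, hF2⟩ := Semi.exists_lift_subPt (closure ((lam : Fin 𝔐.nL → 𝔐.K0) '' I.Jin))
    (cf ξ) f m (by
      intro c hc hcξ
      obtain ⟨φ, hφ, rfl⟩ := (hac_mem_closure_lam_iff I.Jin c).1 hc
      have h1 := I.eq_one_of_smul_eq hξ φ hφ hcξ
      subst h1
      have h2 : f ⟨sig 1, hc⟩ = 1 := by
        show FreeGroup.lift f₀ (ret (sig 1 : 𝔐.K0)) = 1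
        rw [ret_sig, map_one]
      rw [h2, one_mul, mul_one])
  refine ⟨F, fun h => hF2 h, ?_⟩
  intro l hl h
  refine (hF1 (lam l) (subset_closure ⟨l, hl, rfl⟩) h).trans ?_
  show FreeGroup.lift f₀ (ret (lam l : 𝔐.K0)) = f₀ l
  rw [ret_lam, FreeGroup.lift_apply_of]

end Inp

end Claimed.Agent.R152.HW
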