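/-
Row 152, module HW, helper22.   COSET REPRESENTATIVES FOR THE BLOCK SUBGROUP:  `F ∖ U = U · Rep`.
`U = range blkHom ≤ FreeGroup ι`. By `toWord_blkHom` the reduced form of a non-trivial element of `U` begins with a letter `(o j)^{±1}` or with
`a^{ε(l+1)} f^{εN}` (`l < D`). `Rep` = the set of non-empty reduced words which do NOT begin like that. Then `Rep ∩ U = ∅`, and every `φ ∉ U` is
`u · ρ` with `u ∈ U`, `ρ ∈ Rep` (peel off generators: the length drops). So the complement of `U` is (all `U`-words)·(a language given by a condition on a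
prefix of bounded length): no automaton, no parser.
-/
import Claimed.Agent.R152.HW.Blocks

set_option autoImplicit false

namespace Claimed.Agent.R152.HW

open Function

namespace Code

variable {ι : Type} [DecidableEq ι] (c : Code ι)

/-- The forbidden prefixes: `(o j)^ε` and `a^{ε(l+1)} f^{εN}`. -/
def heads : List (List (ι × Bool)) :=
  (List.finRange c.nO).flatMap (fun j => [[(c.o j, true)], [(c.o j, false)]]) ++
  (List.finRange c.D).flatMap (fun l =>
    [List.replicate ((l : ℕ) + 1) (c.la, true) ++ List.replicate c.N (c.lf, true),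
     List.replicate ((l : ℕ) + 1) (c.la, false) ++ List.replicate c.N (c.lf, false)])

/-- Representatives of the non-trivial right cosets `U φ`. -/
def Rep (w : List (ι × Bool)) : Prop :=
  FreeGroup.IsReduced w ∧ w ≠ [] ∧ ∀ p ∈ c.heads, ¬ p <+: w

theorem aw_sg (ε : Bool) (n : ℕ) :
    c.aw (sg ε * ((n : ℤ) + 1)) = List.replicate (n + 1) (c.la, ε) := by
  unfold aw
  cases ε with
  | true =>
      have h1 : (sg true * ((n : ℤ) + 1)).natAbs = n + 1 := by simp [sg]; omega
      have h2 : decide ((0 : ℤ) < sg true * ((n : ℤ) + 1)) = true := by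
        simp only [decide_eq_true_eq, sg, if_true, one_mul]; omega
      rw [h1, h2]
  | false =>
      have h1 : (sg false * ((n : ℤ) + 1)).natAbs = n + 1 := by simp [sg]; omega
      have h2 : decide ((0 : ℤ) < sg false * ((n : ℤ) + 1)) = false := by
        simp only [decide_eq_false_iff_not, sg, Bool.false_eq_true, if_false]; omega
      rw [h1, h2]

theorem mem_coe_finRange (D n : ℕ) :
    n ∈ (do let a ← List.finRange D; pure (a : ℕ) : List ℕ) ↔ n < D := by
  simp only [List.bind_eq_flatMap, List.pure_def, List.mem_flatMap, List.mem_finRange, true_and,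
    List.mem_singleton]
  constructor
  · rintro ⟨a, rfl⟩; exact a.2
  · intro h; exact ⟨⟨n, h⟩, rfl⟩

theorem head_inl_mem (l : Fin c.D) (ε : Bool) :
    List.replicate ((l : ℕ) + 1) (c.la, ε) ++ List.replicate c.N (c.lf, ε) ∈ c.heads := by
  unfold heads
  refine List.mem_append_right _ (List.mem_flatMap.2 ⟨(l : ℕ), (mem_coe_finRange _ _).2 l.2, ?_⟩)
  cases ε <;> simp

theorem head_inr_mem (j : Fin c.nO) (ε : Bool) : [(c.o j, ε)] ∈ c.heads := by
  unfold heads
  refine List.mem_append_left _ (List.mem_flatMap.2 ⟨j, List.mem_finRange j, ?_⟩)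
  cases ε <;> simp

theorem mem_heads {p : List (ι × Bool)} (hp : p ∈ c.heads) :
    (∃ (j : Fin c.nO) (ε : Bool), p = [(c.o j, ε)]) ∨
    (∃ (l : Fin c.D) (ε : Bool),
      p = List.replicate ((l : ℕ) + 1) (c.la, ε) ++ List.replicate c.N (c.lf, ε)) := by
  unfold heads at hp
  rcases List.mem_append.1 hp with h | h
  · obtain ⟨j, -, hj⟩ := List.mem_flatMap.1 h
    left
    simp only [List.mem_cons, List.not_mem_nil, or_false] at hj
    rcases hj with hj | hj
    · exact ⟨j, true, hj⟩
    · exact ⟨j, false, hj⟩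
  · obtain ⟨l, hlD, hl⟩ := List.mem_flatMap.1 h
    have hlD' : l < c.D := (mem_coe_finRange _ _).1 hlD
    right
    simp only [List.mem_cons, List.not_mem_nil, or_false] at hl
    rcases hl with hl | hl
    · exact ⟨⟨l, hlD'⟩, true, hl⟩
    · exact ⟨⟨l, hlD'⟩, false, hl⟩

theorem blkHom_mk_inr (j : Fin c.nO) (ε : Bool) :
    c.blkHom (FreeGroup.mk [(Sum.inr j, ε)]) = FreeGroup.mk [(c.o j, ε)] := by
  have h := c.mk_X 0 [(Sum.inr j, ε)]
  rw [zpow_zero, one_mul] at h
  rw [← h]
  simp [X, aw]

theorem blkHom_mk_inl (l : Fin c.D) (ε : Bool) :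
    c.blkHom (FreeGroup.mk [(Sum.inl l, ε)]) =
      FreeGroup.mk (List.replicate ((l : ℕ) + 1) (c.la, ε) ++ List.replicate c.N (c.lf, ε) ++
        List.replicate ((l : ℕ) + 1) (c.la, ε)) := by
  have h := c.mk_X 0 [(Sum.inl l, ε)]
  rw [zpow_zero, one_mul] at h
  rw [← h]
  simp only [X, zero_add, aw_sg]

theorem mk_replicate_mul_not (x : ι) (b : Bool) (n : ℕ) :
    FreeGroup.mk (List.replicate n (x, b)) * FreeGroup.mk (List.replicate n (x, !b)) = 1 := by
  rw [mk_replicate_aux, mk_replicate_aux]
  have h : FreeGroup.mk [(x, !b)] = (FreeGroup.mk [(x, b)])⁻¹ := by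
    simp [FreeGroup.inv_mk, FreeGroup.invRev]
  rw [h, inv_pow, mul_inv_cancel]

/-- The reduced form of a non-trivial element of `U` begins with a forbidden prefix (`toWord_blkHom`, definition of `X`:
`X 0 ((inl l, ε) :: L) = aw (ε(l+1)) ++ replicate N (lf, ε) ++ _`, `X 0 ((inr j, ε) :: L) = (o j, ε) :: _`). -/
theorem exists_head_prefix (ν : FreeGroup c.UL) (hν : ν ≠ 1) :
    ∃ p ∈ c.heads, p <+: (c.blkHom ν).toWord := by
  rw [toWord_blkHom]
  cases hw : ν.toWord with
  | nil => exact absurd (FreeGroup.toWord_eq_nil_iff.1 hw) hν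
  | cons x L =>
      obtain ⟨u, ε⟩ := x
      cases u with
      | inl l =>
          refine ⟨_, c.head_inl_mem l ε, ?_⟩
          simp only [X, zero_add, aw_sg]
          exact ⟨_, rfl⟩
      | inr j =>
          refine ⟨_, c.head_inr_mem j ε, ?_⟩
          simp only [X]
          exact ⟨c.X 0 L, by simp [aw]⟩

/-- SOUNDNESS: `Rep ∩ U = ∅`. -/
theorem rep_not_mem {w : List (ι × Bool)} (hw : c.Rep w) : FreeGroup.mk w ∉ c.blkHom.range := by
  rintro ⟨ν, hν⟩
  have hword : (c.blkHom ν).toWord = w := by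
    rw [hν, FreeGroup.toWord_mk]
    exact hw.1.reduce_eq
  by_cases h1 : ν = 1
  · subst h1
    rw [map_one, FreeGroup.toWord_one] at hword
    exact hw.2.1 hword.symm
  · obtain ⟨p, hp, hpw⟩ := c.exists_head_prefix ν h1
    rw [hword] at hpw
    exact hw.2.2 p hp hpw

/-- More generally `U · Rep` misses `U`. -/
theorem mul_rep_not_mem (ν : FreeGroup c.UL) {w : List (ι × Bool)} (hw : c.Rep w) :
    c.blkHom ν * FreeGroup.mk w ∉ c.blkHom.range := by
  intro h
  have hν : c.blkHom ν ∈ c.blkHom.range := ⟨ν, rfl⟩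
  exact c.rep_not_mem hw ((Subgroup.mul_mem_cancel_left _ hν).1 h)

theorem exists_rep_aux (S : Set ι) (hS : c.la ∈ S) (n : ℕ) :
    ∀ φ : FreeGroup ι, φ.toWord.length ≤ n → φ ∉ c.blkHom.range → (∀ y ∈ φ.toWord, y.1 ∈ S) →
    ∃ (ν : FreeGroup c.UL) (w : List (ι × Bool)), c.Rep w ∧ (∀ y ∈ w, y.1 ∈ S) ∧
      φ = c.blkHom ν * FreeGroup.mk w := by
  induction n with
  | zero =>
      intro φ hn hφ _
      have h1 : φ.toWord = [] := List.length_eq_zero_iff.1 (Nat.le_zero.1 hn)
      rw [FreeGroup.toWord_eq_nil_iff] at h1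
      subst h1
      exact absurd (Subgroup.one_mem _) hφ
  | succ n ih =>
      intro φ hn hφ hl
      have hne : φ.toWord ≠ [] := by
        intro h1
        rw [FreeGroup.toWord_eq_nil_iff] at h1
        subst h1
        exact hφ (Subgroup.one_mem _)
      by_cases hrep : ∀ p ∈ c.heads, ¬ p <+: φ.toWord
      · refine ⟨1, φ.toWord, ⟨FreeGroup.isReduced_toWord, hne, hrep⟩, hl, ?_⟩
        rw [map_one, one_mul, FreeGroup.mk_toWord]
      · push Not at hrep
        obtain ⟨p, hp, w', hw'⟩ := hrep
        have hφw : φ = FreeGroup.mk (p ++ w') := by rw [hw', FreeGroup.mk_toWord]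
        have hredw' : FreeGroup.IsReduced w' :=
          (FreeGroup.isReduced_toWord (x := φ)).infix ⟨p, [], by rw [List.append_nil, hw']⟩
        have hlw' : ∀ y ∈ w', y.1 ∈ S := fun y hy =>
          hl y (by rw [← hw']; exact List.mem_append_right _ hy)
        have hlen : p.length + w'.length ≤ n + 1 := by
          rw [← List.length_append, hw']; exact hn
        rcases c.mem_heads hp with ⟨j, ε, rfl⟩ | ⟨l, ε, rfl⟩
        · -- a letter `o j`
          have hφ1 : φ = c.blkHom (FreeGroup.mk [(Sum.inr j, ε)]) * FreeGroup.mk w' := by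
            rw [blkHom_mk_inr, FreeGroup.mul_mk]
            exact hφw
          have hword : (FreeGroup.mk w').toWord = w' := by
            rw [FreeGroup.toWord_mk]; exact hredw'.reduce_eq
          obtain ⟨ν, w, hw, hwS, h⟩ := ih (FreeGroup.mk w')
            (by rw [hword]; simp only [List.length_singleton] at hlen; omega)
            (fun h => hφ (by rw [hφ1]; exact Subgroup.mul_mem _ ⟨_, rfl⟩ h))
            (by rw [hword]; exact hlw')
          refine ⟨FreeGroup.mk [(Sum.inr j, ε)] * ν, w, hw, hwS, ?_⟩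
          rw [map_mul, mul_assoc, ← h]
          exact hφ1
        · -- a block
          have hφ1 : φ = c.blkHom (FreeGroup.mk [(Sum.inl l, ε)]) *
              FreeGroup.mk (List.replicate ((l : ℕ) + 1) (c.la, !ε) ++ w') := by
            rw [blkHom_mk_inl, hφw]
            simp only [← FreeGroup.mul_mk]
            rw [mul_assoc (FreeGroup.mk (List.replicate ((l : ℕ) + 1) (c.la, ε)) *
                FreeGroup.mk (List.replicate c.N (c.lf, ε))),
              ← mul_assoc (FreeGroup.mk (List.replicate ((l : ℕ) + 1) (c.la, ε)))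
                (FreeGroup.mk (List.replicate ((l : ℕ) + 1) (c.la, !ε))),
              mk_replicate_mul_not, one_mul]
          have hred : FreeGroup.Red (List.replicate ((l : ℕ) + 1) (c.la, !ε) ++ w')
              (FreeGroup.mk (List.replicate ((l : ℕ) + 1) (c.la, !ε) ++ w')).toWord := by
            rw [FreeGroup.toWord_mk]; exact FreeGroup.reduce.red
          obtain ⟨ν, w, hw, hwS, h⟩ := ih
            (FreeGroup.mk (List.replicate ((l : ℕ) + 1) (c.la, !ε) ++ w'))
            (by
              have h1 := hred.length_le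
              have h2 := c.N_pos
              simp only [List.length_append, List.length_replicate] at h1 hlen
              omega)
            (fun h => hφ (by rw [hφ1]; exact Subgroup.mul_mem _ ⟨_, rfl⟩ h))
            (by
              intro y hy
              rcases List.mem_append.1 (hred.sublist.subset hy) with h1 | h1
              · rw [List.eq_of_mem_replicate h1]; exact hS
              · exact hlw' y h1)
          refine ⟨FreeGroup.mk [(Sum.inl l, ε)] * ν, w, hw, hwS, ?_⟩
          rw [map_mul, mul_assoc, ← h]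
          exact hφ1

/-- COMPLETENESS. Strong induction on `φ.toWord.length`. If `φ.toWord` is in `Rep` we are done (`ν = 1`). Otherwise (`φ ≠ 1` since `φ ∉ U`) it begins
with a forbidden prefix. `(o j, ε) :: w'`: `φ = (o j)^ε · mk w'`, `mk w' ∉ U`, shorter. `a^{ε(l+1)} f^{εN} ++ w'`: `φ = b_l^ε · φ₁`,
`φ₁ = a^{-ε(l+1)} mk w'`, `φ₁.toWord.length ≤ l + 1 + w'.length < φ.toWord.length` because `N > 0`; `φ₁ ∉ U`. -/
theorem exists_rep (φ : FreeGroup ι) (hφ : φ ∉ c.blkHom.range) :
    ∃ (ν : FreeGroup c.UL) (w : List (ι × Bool)), c.Rep w ∧ φ = c.blkHom ν * FreeGroup.mk w := by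
  obtain ⟨ν, w, hw, -, h⟩ := c.exists_rep_aux Set.univ (Set.mem_univ _) _ φ le_rfl hφ
    (fun _ _ => Set.mem_univ _)
  exact ⟨ν, w, hw, h⟩

/-- If the letters of `φ` lie in a set `S` containing `la`, the representative can be chosen with letters in `S`
(same induction; the only new letters are `a^{±1}`). -/
theorem exists_rep_of_letters (S : Set ι) (hS : c.la ∈ S) (φ : FreeGroup ι) (hφ : φ ∉ c.blkHom.range)
    (hl : ∀ y ∈ φ.toWord, y.1 ∈ S) :
    ∃ (ν : FreeGroup c.UL) (w : List (ι × Bool)), c.Rep w ∧ (∀ y ∈ w, y.1 ∈ S) ∧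
      φ = c.blkHom ν * FreeGroup.mk w :=
  c.exists_rep_aux S hS _ φ le_rfl hφ hl

end Code

end Claimed.Agent.R152.HW
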